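import Vale.Agent.P286.H867.OT
import Vale.Agent.P286.H697.OmF
import Vale.Agent.P286.H64.LM

/-!
# The action of the forms on a twisted tensor product
-/

namespace Vale.Agent.P286.H867

open Vale.Agent.P286.H710 Vale.Agent.P286.H847 Vale.Agent.P286.H697 Vale.Agent.P286.H64
  Vale.Agent.P286.St TensorProduct CategoryTheory

noncomputable section

variable {A : Type} [CommRing A] [Algebra ℂ A] {n : ℕ}

/-- Operators `e i` on a differential graded module over the forms, which anticommute with each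
other, with the differential and with the forms of degree one. -/
structure OE {A : Type} [CommRing A] [Algebra ℂ A] (M : OmM A) (n : ℕ) where
  e : Fin n → M.M.V →ₗ[ℂ] M.M.V
  e_e : ∀ i j x, e i (e j x) = - e j (e i x)
  e_d : ∀ i x, e i (M.M.d x) = - M.M.d (e i x)
  e_gr : ∀ (i : Fin n) (m : ℤ) (x : M.M.V), x ∈ M.M.gr m → e i x ∈ M.M.gr (m - (4 * (i : ℤ) + 3))
  e_smul : ∀ (i : Fin n) (w : Om ℂ A) (x : M.M.V), e i (w • x) = Om.sg w • e i x

/-- The underlying module over the exterior algebra. -/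
abbrev OE.lm {M : OmM A} (E : OE M n) : LM n where
  toGD := M.M
  e := E.e
  e_e := E.e_e
  e_d := E.e_d
  e_gr := E.e_gr

theorem oev_sg (w : Om ℂ A) : oev A (Om.sg w) = oev A w := by
  rw [oev_apply, oev_apply, osg_sg, add_comm]

theorem ood_sg (w : Om ℂ A) : ood A (Om.sg w) = - ood A w := by
  rw [ood_apply, ood_apply, osg_sg, ← smul_neg, neg_sub]

theorem neg_smul_om {V : Type} [AddCommGroup V] [Module (Om ℂ A) V] (w : Om ℂ A) (x : V) :
    (-w) • x = -(w • x) := neg_smul w x

variable {W : SGD} (Y : LM.Yop n W) {M : OmM A} (E : OE M n)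

theorem yE_opL (i : Fin n) (w : Om ℂ A) (z : W.V ⊗[ℂ] M.M.V) :
    LM.yE Y E.lm i (opL W M.M.V w z) = opL W M.M.V (Om.sg w) (LM.yE Y E.lm i z) := by
  induction z using TensorProduct.induction_on with
  | zero => simp
  | tmul a x =>
    rw [opL_tmul, map_add, LM.yE_tmul, LM.yE_tmul, LM.yE_tmul, opL_tmul]
    change Y.y i (W.sg a) ⊗ₜ[ℂ] E.e i (oev A w • x) +
      Y.y i (W.sg (W.sg a)) ⊗ₜ[ℂ] E.e i (ood A w • x) = _
    rw [E.e_smul, E.e_smul, oev_sg, ood_sg, sg_oev, sg_ood, neg_smul_om, ← Y.y_sg]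
  | add z z' hz hz' => rw [map_add, map_add, hz, hz', map_add, map_add]

/-- The action of the forms on the twisted tensor product. -/
def OE.act : OAct A (LM.tw Y E.lm) where
  L := opL W M.M.V
  leib w z := by
    change W.V ⊗[ℂ] M.M.V at z
    change LM.twd Y E.lm (opL W M.M.V w z) = opL W M.M.V (Om.d w) z +
      opL W M.M.V (Om.sg w) (LM.twd Y E.lm z)
    rw [LM.twd_apply, LM.twd_apply, map_sub, map_sum]
    have h := (OT W M.M M.leib M.smul_gr).leib w z
    change SGD.td W M.M (opL W M.M.V w z) = opL W M.M.V (Om.d w) z +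
      opL W M.M.V (Om.sg w) (SGD.td W M.M z) at h
    rw [h, Finset.sum_congr rfl fun i _ => yE_opL Y E i w z]
    abel
  deg p m w z hw hz := (OT W M.M M.leib M.smul_gr).deg p m w z hw hz

/-- Operators `e i` on a family, compatible with the transition maps. -/
structure OEF {T : TSite} (F : OmF T) (n : ℕ) where
  E : ∀ X : T.C, OE (F.F X) n
  nat : ∀ {X Y : T.C} (φ : X ⟶ Y) (i : Fin n) (x : (F.F X).M.V),
    (F.t φ).f ((E X).e i x) = (E Y).e i ((F.t φ).f x)

end

end Vale.Agent.P286.H867
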