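import Vale.Agent.P286.H166.Wk1
import Vale.Agent.P286.H64.LM

/-!
# The operators `y t` on `Wk I k`
-/

namespace Vale.Agent.P286.H867

open Vale.Agent.P286.H847 Vale.Agent.P286.H64 TensorProduct

noncomputable section

set_option linter.unusedSectionVars false

variable (I : Type) [Fintype I] [DecidableEq I]

/-- The elements `y t` of `Wk I k`. -/
def yel (k : ℕ) {n : ℕ} (t : Fin n) : Wk I k := Wk.inP I k (Wk.ep I (2 * ((t : ℕ) + 1)))

theorem yel_self {n : ℕ} (t : Fin n) : yel I n t = Wk.y I n t := rfl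

variable {I}

theorem yel_comm (k : ℕ) {n : ℕ} (t : Fin n) (x : Wk I k) : yel I k t * x = x * yel I k t :=
  Wk.inP_comm _ x

theorem sgA_yel (k : ℕ) {n : ℕ} (t : Fin n) : Wk.sgA I k (yel I k t) = yel I k t := Wk.sgA_inP _

theorem d_yel (k : ℕ) {n : ℕ} (t : Fin n) : Wk.d I k (yel I k t) = 0 := Wk.d_ep _

theorem yel_gr (k : ℕ) {n : ℕ} (t : Fin n) : yel I k t ∈ Wk.gr I k (4 * (t : ℤ) + 4) := by
  have h := Wk.inP_gr (n := k) (Wk.ep_hom (I := I) (2 * ((t : ℕ) + 1)))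
  have e : (2 * ((2 * ((t : ℕ) + 1) : ℕ) : ℤ)) = 4 * ((t : ℕ) : ℤ) + 4 := by push_cast; ring
  rw [e] at h
  exact h

theorem d_yel_mul (k : ℕ) {n : ℕ} (t : Fin n) (x : Wk I k) :
    Wk.d I k (yel I k t * x) = yel I k t * Wk.d I k x := by
  rw [Wk.d_mul, d_yel, zero_mul, zero_add, sgA_yel]

theorem sgA_yel_mul (k : ℕ) {n : ℕ} (t : Fin n) (x : Wk I k) :
    Wk.sgA I k (yel I k t * x) = yel I k t * Wk.sgA I k x := by
  rw [map_mul, sgA_yel]

theorem eps_yel (k : ℕ) {n : ℕ} (t : Fin n) : Wk.eps I k (yel I k t) = 0 :=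
  Wk.eps_ep (by omega)

variable (I)

/-- The operators `y t`, as multiplications. -/
abbrev yop (k n : ℕ) : LM.Yop n (WK I k) where
  y t := LinearMap.mulLeft ℂ (yel I k t)
  y_y t u x := by
    change yel I k t * (yel I k u * (x : Wk I k)) = yel I k u * (yel I k t * (x : Wk I k))
    rw [← mul_assoc, ← mul_assoc, yel_comm k t (yel I k u)]
  y_d t x := (d_yel_mul k t x).symm
  y_sg t x := (sgA_yel_mul k t x).symm
  y_gr t m x hx := by
    have h := Wk.mul_gr (yel_gr (I := I) k t) hx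
    rw [show 4 * (t : ℤ) + 4 + m = m + (4 * (t : ℤ) + 4) by ring] at h
    exact h

end

end Vale.Agent.P286.H867
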