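import Vale.Agent.P286.H867.WkIm
import Vale.Agent.P286.H374.GauA

/-!
# The product map `Wk ⊗ Q → Wk ⊗ V` defined by a map `Q → W ⊗ V`
-/

namespace Vale.Agent.P286.H867

open Vale.Agent.P286.H847 Vale.Agent.P286.H710 Vale.Agent.P286.H374 TensorProduct

noncomputable section

set_option linter.unusedSectionVars false

variable (I : Type) [Fintype I] [DecidableEq I] (n : ℕ)

section Lin

variable (V : Type) [AddCommGroup V] [Module ℂ V] {Q Q' V' : Type} [AddCommGroup Q] [Module ℂ Q]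
  [AddCommGroup Q'] [Module ℂ Q'] [AddCommGroup V'] [Module ℂ V']

/-- The inclusion `W ⊗ V → Wk ⊗ V`. -/
def imV : Wk I 0 ⊗[ℂ] V →ₗ[ℂ] Wk I n ⊗[ℂ] V :=
  TensorProduct.map (Wk.im I n).toLinearMap LinearMap.id

theorem imV_tmul (w : Wk I 0) (x : V) : imV I n V (w ⊗ₜ[ℂ] x) = Wk.im I n w ⊗ₜ[ℂ] x := rfl

theorem imV_lw (w : Wk I 0) (z : Wk I 0 ⊗[ℂ] V) :
    imV I n V (Gau.lw V w z) = Gau.lw V (Wk.im I n w) (imV I n V z) := by
  induction z using TensorProduct.induction_on with
  | zero => simp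
  | tmul a x => rw [Gau.lw_tmul, imV_tmul, imV_tmul, Gau.lw_tmul, map_mul]
  | add x y hx hy => rw [map_add, map_add, hx, hy, map_add, map_add]

variable {V}

theorem lw_lw (a b : Wk I n) (z : Wk I n ⊗[ℂ] V) :
    Gau.lw V a (Gau.lw V b z) = Gau.lw V (a * b) z := by
  rw [Gau.lw_mul]
  rfl

theorem lw_add' (a b : Wk I n) (z : Wk I n ⊗[ℂ] V) :
    Gau.lw V (a + b) z = Gau.lw V a z + Gau.lw V b z := by
  rw [Gau.lw_add]
  rfl

theorem lw_smul' (c : ℂ) (a : Wk I n) (z : Wk I n ⊗[ℂ] V) :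
    Gau.lw V (c • a) z = c • Gau.lw V a z := by
  induction z using TensorProduct.induction_on with
  | zero => simp
  | tmul b x => rw [Gau.lw_tmul, Gau.lw_tmul, smul_mul_assoc, smul_tmul']
  | add x y hx hy => rw [map_add, map_add, hx, hy, smul_add]

/-- The product map. -/
def piL (p : Q →ₗ[ℂ] Wk I 0 ⊗[ℂ] V) : Wk I n ⊗[ℂ] Q →ₗ[ℂ] Wk I n ⊗[ℂ] V :=
  TensorProduct.lift (LinearMap.mk₂ ℂ (fun a y => Gau.lw V a (imV I n V (p y)))
    (fun a b y => lw_add' I n a b _) (fun c a y => lw_smul' I n c a _)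
    (fun a x y => by rw [map_add, map_add, map_add]) (fun c a y => by
      rw [map_smul, map_smul, map_smul]))

variable (p : Q →ₗ[ℂ] Wk I 0 ⊗[ℂ] V)

theorem piL_tmul (a : Wk I n) (y : Q) :
    piL I n p (a ⊗ₜ[ℂ] y) = Gau.lw V a (imV I n V (p y)) := rfl

theorem piL_lw (a : Wk I n) (z : Wk I n ⊗[ℂ] Q) :
    piL I n p (Gau.lw Q a z) = Gau.lw V a (piL I n p z) := by
  induction z using TensorProduct.induction_on with
  | zero => simp
  | tmul b x => rw [Gau.lw_tmul, piL_tmul, piL_tmul, lw_lw]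
  | add x y hx hy => rw [map_add, map_add, hx, hy, map_add, map_add]

/-- Naturality. -/
theorem piL_nat (q : Q →ₗ[ℂ] Q') (v : V →ₗ[ℂ] V') (p' : Q' →ₗ[ℂ] Wk I 0 ⊗[ℂ] V')
    (h : ∀ y, p' (q y) = TensorProduct.map LinearMap.id v (p y)) (z : Wk I n ⊗[ℂ] Q) :
    piL I n p' (TensorProduct.map LinearMap.id q z) =
      TensorProduct.map LinearMap.id v (piL I n p z) := by
  have h1 : ∀ (a : Wk I n) (z : Wk I 0 ⊗[ℂ] V),
      Gau.lw V' a (imV I n V' (TensorProduct.map LinearMap.id v z)) =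
        TensorProduct.map LinearMap.id v (Gau.lw V a (imV I n V z)) := by
    intro a z
    induction z using TensorProduct.induction_on with
    | zero => simp
    | tmul b x => rfl
    | add x y hx hy => simp only [map_add, hx, hy]
  induction z using TensorProduct.induction_on with
  | zero => simp
  | tmul b x => rw [map_tmul, piL_tmul, piL_tmul, h, h1]; rfl
  | add x y hx hy => simp only [map_add, hx, hy]

/-- The derivatives. -/
theorem e_lw_imV (t : Fin n) (a : Wk I n) (z : Wk I 0 ⊗[ℂ] V) :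
    TensorProduct.map (Wk.e I n t) LinearMap.id (Gau.lw V a (imV I n V z)) =
      Gau.lw V (Wk.e I n t a) (imV I n V z) := by
  induction z using TensorProduct.induction_on with
  | zero => simp
  | tmul b x => rw [imV_tmul, Gau.lw_tmul, Gau.lw_tmul, map_tmul, e_mul_im]; rfl
  | add x y hx hy => simp only [map_add, hx, hy]

theorem piL_e (t : Fin n) (z : Wk I n ⊗[ℂ] Q) :
    piL I n p (TensorProduct.map (Wk.e I n t) LinearMap.id z) =
      TensorProduct.map (Wk.e I n t) LinearMap.id (piL I n p z) := by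
  induction z using TensorProduct.induction_on with
  | zero => simp
  | tmul b x => rw [map_tmul, piL_tmul, piL_tmul, e_lw_imV]; rfl
  | add x y hx hy => simp only [map_add, hx, hy]

/-- The augmentation. -/
def epV (k : ℕ) (V : Type) [AddCommGroup V] [Module ℂ V] : Wk I k ⊗[ℂ] V →ₗ[ℂ] V :=
  TensorProduct.lid ℂ V ∘ₗ TensorProduct.map (Wk.eps I k).toLinearMap LinearMap.id

theorem epV_tmul (k : ℕ) (w : Wk I k) (x : V) : epV I k V (w ⊗ₜ[ℂ] x) = Wk.eps I k w • x := rfl

theorem epV_lw_imV (a : Wk I n) (z : Wk I 0 ⊗[ℂ] V) :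
    epV I n V (Gau.lw V a (imV I n V z)) = Wk.eps I n a • epV I 0 V z := by
  induction z using TensorProduct.induction_on with
  | zero => simp
  | tmul b x => rw [imV_tmul, Gau.lw_tmul, epV_tmul, epV_tmul, map_mul, eps_im, mul_smul]
  | add x y hx hy => simp only [map_add, hx, hy, smul_add]

theorem epV_piL (z : Wk I n ⊗[ℂ] Q) : epV I n V (piL I n p z) = epV I 0 V (p (epV I n Q z)) := by
  induction z using TensorProduct.induction_on with
  | zero => simp
  | tmul b x => rw [piL_tmul, epV_lw_imV, epV_tmul, map_smul, map_smul]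
  | add x y hx hy => simp only [map_add, hx, hy]

end Lin

section Om

variable {B : Type} [CommRing B] [Algebra ℂ B]
variable {V : Type} [AddCommGroup V] [Module ℂ V] [Module (Om ℂ B) V] [IsScalarTower ℂ (Om ℂ B) V]
variable {Q : Type} [AddCommGroup Q] [Module ℂ Q] [Module (Om ℂ B) Q] [IsScalarTower ℂ (Om ℂ B) Q]

theorem imV_ro (b : B) (z : Wk I 0 ⊗[ℂ] V) :
    imV I n V (Gau.ro V (Wk I 0) b z) = Gau.ro V (Wk I n) b (imV I n V z) := by
  induction z using TensorProduct.induction_on with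
  | zero => simp
  | tmul a x => rfl
  | add x y hx hy => simp only [map_add, hx, hy]

theorem imV_r1 (w : Om ℂ B) (z : Wk I 0 ⊗[ℂ] V) :
    imV I n V (Gau.r1 (Wk.sgA I 0) V w z) = Gau.r1 (Wk.sgA I n) V w (imV I n V z) := by
  induction z using TensorProduct.induction_on with
  | zero => simp
  | tmul a x => rw [Gau.r1_tmul, imV_tmul, imV_tmul, Gau.r1_tmul, im_sgA]
  | add x y hx hy => simp only [map_add, hx, hy]

variable {p : Q →ₗ[ℂ] Wk I 0 ⊗[ℂ] V}

theorem piL_ro (b : B) (hp : ∀ y, p ((algebraMap B (Om ℂ B) b) • y) = Gau.ro V (Wk I 0) b (p y))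
    (z : Wk I n ⊗[ℂ] Q) :
    piL I n p (Gau.ro Q (Wk I n) b z) = Gau.ro V (Wk I n) b (piL I n p z) := by
  induction z using TensorProduct.induction_on with
  | zero => simp
  | tmul a x =>
    rw [Gau.ro_tmul, piL_tmul, piL_tmul, hp, imV_ro]
    exact (LinearMap.congr_fun (Gau.ro_lw (V := V) b a) _).symm
  | add x y hx hy => simp only [map_add, hx, hy]

theorem piL_r1 (w : Om ℂ B) (hp : ∀ y, p (w • y) = Gau.r1 (Wk.sgA I 0) V w (p y))
    (z : Wk I n ⊗[ℂ] Q) :
    piL I n p (Gau.r1 (Wk.sgA I n) Q w z) = Gau.r1 (Wk.sgA I n) V w (piL I n p z) := by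
  induction z using TensorProduct.induction_on with
  | zero => simp
  | tmul a x =>
    rw [Gau.r1_tmul, piL_tmul, piL_tmul, hp, imV_r1]
    exact LinearMap.congr_fun (Gau.lw_r1 (V := V) (Wk.sgA I n) a w) _
  | add x y hx hy => simp only [map_add, hx, hy]

end Om

end

end Vale.Agent.P286.H867
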