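import Vale.Agent.P286.H867.TwA
import Vale.Agent.P286.H697.DRF
import Vale.Agent.P286.H549.EvD

/-!
# The value on the diagonal as data for the product map
-/

namespace Vale.Agent.P286.H867

open Vale.Agent.P286.H710 Vale.Agent.P286.H847 Vale.Agent.P286.H697 Vale.Agent.P286.H389
  TensorProduct

noncomputable section

variable {A : Type} [CommRing A] [Algebra ℂ A]

theorem dd_eq (b : H710.DB ℂ A) (c : A) :
    (Om.dd c : Om ℂ A) = ∑ i, b.v i c • (Om.dd (b.x i) : Om ℂ A) := by
  have h := congrArg (ExteriorAlgebra.ι A (M := Ω[A⁄ℂ])) (b.h c)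
  rw [map_sum] at h
  refine h.trans (Finset.sum_congr rfl fun i _ => ?_)
  rw [map_smul]
  rfl

variable {M : AGD A} (a : OAct A M.toGD)
  (ha : ∀ (c : A) (x : M.V), c • x = a.L (algebraMap A (Om ℂ A) c) x)

include ha in
theorem smul_L (c : A) (w : Om ℂ A) (x : M.V) : a.L (c • w) x = c • a.L w x := by
  rw [ha, Algebra.smul_def, map_mul]
  rfl

include ha in
theorem L_smul (c : A) (w : Om ℂ A) (x : M.V) : a.L w (c • x) = c • a.L w x := by
  rw [← smul_L a ha, ha, Algebra.smul_def, Algebra.commutes, map_mul]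
  rfl

include ha in
theorem d_csmul' (b : H710.DB ℂ A) (c : A) (x : M.V) :
    M.d (c • x) = c • M.d x + ∑ i, b.v i c • a.L (Om.dd (b.x i)) x := by
  have h1 : M.d (c • x) = a.L (Om.dd c) x + c • M.d x := by
    have h2 := a.leib (algebraMap A (Om ℂ A) c) x
    rw [Om.d_algebraMap, AlgHom.commutes, ← ha, ← ha] at h2
    exact h2
  rw [h1, add_comm, dd_eq b, map_sum, LinearMap.sum_apply]
  congr 1
  exact Finset.sum_congr rfl fun i _ => smul_L a ha _ _ x

include ha in
/-- The value on the diagonal and the differential. -/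
theorem ev_comm (b : H710.DB ℂ A) (z : J A M.V) :
    J.ev (J.map M.d M.dO z) + ∑ i, a.L (Om.dd (b.x i)) (J.ev (J.vf (b.v i) z)) =
      M.d (J.ev z) :=
  (H549.ev_ord M.d b.v (fun i => a.L (Om.dd (b.x i))) (fun i c x => L_smul a ha c _ x)
    (fun c x => d_csmul' a ha b c x) M.dO z).symm

/-- The data for the product map defined by a map to the jets. -/
def evJ (b : H710.DB ℂ A) (K : DGM A) (e : K.M.V →ₗ[ℂ] J A M.V)
    (hd : ∀ x, e (K.M.d x) = J.map M.d M.dO (e x)) (hfn : ∀ (c : A) x, e (c • x) = J.fn c (e x))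
    (hvf : ∀ (v : Derivation ℂ A A) x, e (K.C.act v x) = J.vf v (e x))
    (hg : ∀ (m : ℤ), ∀ x ∈ K.M.gr m, e x ∈ (JG M).gr m) : OAct.Ev b K a where
  e := J.ev ∘ₗ e
  lin c x := by rw [LinearMap.comp_apply, LinearMap.comp_apply, hfn, J.ev_fn, ha]
  comm x := by
    have h := ev_comm a ha b (e x)
    rw [LinearMap.comp_apply, LinearMap.comp_apply, hd, ← h]
    congr 1
    refine Finset.sum_congr rfl fun i _ => ?_
    rw [LinearMap.comp_apply, hvf]
  deg m x hx := JG.ev_gr (hg m x hx)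

end

end Vale.Agent.P286.H867
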