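import Vale.Agent.P286.H867.Yop
import Vale.Agent.P286.H867.PiL

/-!
# The product map is a morphism to the twisted tensor product
-/

namespace Vale.Agent.P286.H867

open Vale.Agent.P286.H847 Vale.Agent.P286.H64 Vale.Agent.P286.H374 TensorProduct

noncomputable section

set_option linter.unusedSectionVars false

variable (I : Type) [Fintype I] [DecidableEq I] {n : ℕ}

section Tw

variable (P : LM n)

theorem twd_wk (k : ℕ) (a : Wk I k) (x : P.V) :
    LM.twd (yop I k n) P (a ⊗ₜ[ℂ] x) = Wk.d I k a ⊗ₜ[ℂ] x + Wk.sgA I k a ⊗ₜ[ℂ] P.d x -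
      ∑ t, (yel I k t * Wk.sgA I k a) ⊗ₜ[ℂ] P.e t x := LM.twd_tmul (yop I k n) P a x

theorem twd_lw (k : ℕ) (a : Wk I k) (z : Wk I k ⊗[ℂ] P.V) :
    LM.twd (yop I k n) P (Gau.lw P.V a z) = Gau.lw P.V (Wk.d I k a) z +
      Gau.lw P.V (Wk.sgA I k a) (LM.twd (yop I k n) P z) := by
  induction z using TensorProduct.induction_on with
  | zero => simp
  | tmul b x =>
    rw [Gau.lw_tmul, Gau.lw_tmul, twd_wk, twd_wk, map_sub, map_add, map_sum, Gau.lw_tmul,
      Gau.lw_tmul, Wk.d_mul, map_mul, add_tmul]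
    have h : ∀ t : Fin n, Gau.lw P.V (Wk.sgA I k a) ((yel I k t * Wk.sgA I k b) ⊗ₜ[ℂ] P.e t x) =
        (yel I k t * (Wk.sgA I k a * Wk.sgA I k b)) ⊗ₜ[ℂ] P.e t x := by
      intro t
      rw [Gau.lw_tmul, ← mul_assoc, ← yel_comm, mul_assoc]
    rw [Finset.sum_congr rfl fun t _ => h t]
    abel
  | add x y hx hy => simp only [map_add, hx, hy]; abel

theorem im_yel (t : Fin n) : Wk.im I n (yel I 0 t) = yel I n t := im_inP I n _

theorem twd_imV (z : Wk I 0 ⊗[ℂ] P.V) :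
    LM.twd (yop I n n) P (imV I n P.V z) = imV I n P.V (LM.twd (yop I 0 n) P z) := by
  induction z using TensorProduct.induction_on with
  | zero => simp
  | tmul b x =>
    rw [imV_tmul, twd_wk, twd_wk, map_sub, map_add, map_sum, imV_tmul, imV_tmul, d_im, im_sgA]
    congr 1
    refine Finset.sum_congr rfl fun t _ => ?_
    rw [imV_tmul, map_mul, im_yel, im_sgA]
  | add x y hx hy => simp only [map_add, hx, hy]

theorem lw_tgr (k : ℕ) {F : GD} {i m m' : ℤ} (h : i + m = m') {a : Wk I k} (ha : a ∈ Wk.gr I k i)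
    {z : Wk I k ⊗[ℂ] F.V} (hz : z ∈ SGD.tgr (WK I k).toGD F m) :
    Gau.lw F.V a z ∈ SGD.tgr (WK I k).toGD F m' := by
  refine SGD.map_tgr (E := (WK I k).toGD) (E' := (WK I k).toGD) (T := Gau.lw F.V a) ?_ hz
  intro u v b x huv hb hx
  exact SGD.tmul_mem (E := (WK I k).toGD) (by rw [← h, ← huv, add_assoc]) (Wk.mul_gr ha hb) hx

theorem imV_tgr {F : GD} {m : ℤ} {z : Wk I 0 ⊗[ℂ] F.V}
    (hz : z ∈ SGD.tgr (WK I 0).toGD F m) : imV I n F.V z ∈ SGD.tgr (WK I n).toGD F m := by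
  refine SGD.map_tgr (E := (WK I 0).toGD) (E' := (WK I n).toGD) (T := imV I n F.V) ?_ hz
  intro u v b x huv hb hx
  exact SGD.tmul_mem (E := (WK I n).toGD) huv (im_gr I n hb) hx

end Tw

/-- The product map, as a morphism to the twisted tensor product. -/
def piH {P : LM n} {Q : GD} (p : GD.Hom Q (LM.tw (yop I 0 n) P)) :
    GD.Hom (SGD.tens (WK I n) Q) (LM.tw (yop I n n) P) where
  f := piL I n (V := P.V) p.f
  comm z := by
    change Wk I n ⊗[ℂ] Q.V at z
    change piL I n (V := P.V) p.f (SGD.td (WK I n) Q z) =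
      LM.twd (yop I n n) P (piL I n (V := P.V) p.f z)
    induction z using TensorProduct.induction_on with
    | zero => simp
    | tmul a y =>
      have h1 : SGD.td (WK I n) Q (a ⊗ₜ[ℂ] y) = Wk.d I n a ⊗ₜ[ℂ] y + Wk.sgA I n a ⊗ₜ[ℂ] Q.d y := rfl
      have h2 : p.f (Q.d y) = LM.twd (yop I 0 n) P (p.f y) := p.comm y
      rw [h1, map_add, piL_tmul, piL_tmul, piL_tmul, twd_lw, twd_imV, h2]
    | add x y hx hy => simp only [map_add, hx, hy]
  deg m z hz := by
    refine SGD.map_tgr (E := (WK I n).toGD) (E' := (WK I n).toGD) (T := piL I n (V := P.V) p.f)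
      ?_ hz
    intro i j a y hij ha hy
    rw [piL_tmul]
    exact lw_tgr I n (F := P.toGD) hij ha (imV_tgr I (F := P.toGD) (p.deg j y hy))

theorem piH_f {P : LM n} {Q : GD} (p : GD.Hom Q (LM.tw (yop I 0 n) P)) (z : Wk I n ⊗[ℂ] Q.V) :
    (piH I p).f z = piL I n (V := P.V) p.f z := rfl

end

end Vale.Agent.P286.H867
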