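import Vale.Agent.P286.H867.FaceW
import Vale.Agent.P286.H867.PiD
import Vale.Agent.P286.H867.TwA
import Vale.Agent.P286.H697.DRF

/-!
# The product maps of the de Rham complexes and the gauge transition maps
-/

namespace Vale.Agent.P286.H867

open Vale.Agent.P286.H847 Vale.Agent.P286.H710 Vale.Agent.P286.H374 Vale.Agent.P286.H697
  Vale.Agent.P286.H987 Vale.Agent.P286.H64 Vale.Agent.P286.Gen TensorProduct CategoryTheory

noncomputable section

set_option linter.unusedSectionVars false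

variable {I : Type} [Fintype I] [DecidableEq I] {n : ℕ}

section Op

variable {B : Type} [CommRing B] [Algebra ℂ B]
variable {V : Type} [AddCommGroup V] [Module ℂ V] [Module (Om ℂ B) V] [IsScalarTower ℂ (Om ℂ B) V]

theorem opL_ro (k : ℕ) (b : B) (z : Wk I k ⊗[ℂ] V) :
    opL (WK I k) V (algebraMap B (Om ℂ B) b) z = Gau.ro V (Wk I k) b z := by
  refine (opL_alg (WK I k) V b z).trans ?_
  induction z using TensorProduct.induction_on with
  | zero => rw [map_zero, map_zero]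
  | tmul a x => rfl
  | add x y hx hy => rw [map_add, map_add, hx, hy]

theorem opL_r1 (k : ℕ) (b : B) (z : Wk I k ⊗[ℂ] V) :
    opL (WK I k) V (Om.dd b) z = Gau.r1 (Wk.sgA I k) V (Om.dd b : Om ℂ B) z := by
  refine (opL_odd (WK I k) V (Om.sg_dd b) z).trans ?_
  induction z using TensorProduct.induction_on with
  | zero => rw [map_zero, map_zero]
  | tmul a x => rfl
  | add x y hx hy => rw [map_add, map_add, hx, hy]

end Op

variable {N : ℕ} {Γ : Gps N} (R : Rpn Γ I)

/-- The gauge transition maps are semilinear over the forms. -/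
theorem gm1_opL (k : ℕ) {X Y : Gen.BGObj Γ} (φ : X ⟶ Y) (M : OmM X.A.R) (M' : OmM Y.A.R)
    (t : GD.Hom M.M M'.M)
    (ht : ∀ (w : Om ℂ X.A.R) (x : M.M.V), t.f (w • x) = Om.pb (Gen.BGHom.f φ) w • t.f x)
    (w : Om ℂ X.A.R) (z : Wk I k ⊗[ℂ] M.M.V) :
    (Gau.gm1 k R φ M M' t).f (opL (WK I k) M.M.V w z) =
      opL (WK I k) M'.M.V (Om.pb (Gen.BGHom.f φ) w) ((Gau.gm1 k R φ M M' t).f z) := by
  induction w using Om.induction generalizing z with
  | alg b =>
    rw [opL_ro, Om.pb_alg, opL_ro]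
    exact Gau.G_ro (Q := Gau.wq I k) ht b z
  | dd b =>
    rw [opL_r1, Om.pb_dd, opL_r1]
    exact Gau.G_r1 (Q := Gau.wq I k) ht b z
  | mul u v hu hv =>
    rw [map_mul, map_mul, map_mul]
    exact (hu _).trans (congrArg _ (hv _))
  | add u v hu hv =>
    rw [map_add, map_add, map_add, LinearMap.add_apply, LinearMap.add_apply]
    refine (map_add _ _ _).trans ?_
    rw [hu, hv]

/-- **The product maps of the de Rham complexes intertwine the gauge transition maps.** -/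
theorem piL_ev {X Y : Gen.BGObj Γ} (φ : X ⟶ Y) {b : DB ℂ X.A.R} {K : DGM X.A.R}
    {b' : DB ℂ Y.A.R} {K' : DGM Y.A.R} (t : K.M.V →+ K'.M.V)
    (ht : ∀ (c : X.A.R) m, t (c • m) = Gen.BGHom.f φ c • t m)
    (T : GD.Hom (drO b K).M (drO b' K').M)
    (hT : ∀ x, T.f x = pbT (Gen.BGHom.f φ) t ht x)
    {M : OmM X.A.R} {M' : OmM Y.A.R} (u : GD.Hom M.M M'.M)
    (hu : ∀ (w : Om ℂ X.A.R) (x : M.M.V), u.f (w • x) = Om.pb (Gen.BGHom.f φ) w • u.f x)
    {E : OE M n} {E' : OE M' n} (e : OAct.Ev b K (E.act (yop I 0 n)))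
    (e' : OAct.Ev b' K' (E'.act (yop I 0 n)))
    (he : ∀ x : K.M.V, (Gau.gm1 0 R φ M M' u).f (e.e x) = e'.e (t x))
    (z : Wk I n ⊗[ℂ] (drO b K).M.V) :
    piL I n e'.P ((Gau.gm1 n R φ (drO b K) (drO b' K') T).f z) =
      (Gau.gm1 n R φ M M' u).f (piL I n e.P z) := by
  refine piL_gm1 (n := n) R φ T u e.P e'.P ?_ ?_ ?_ z
  · intro c y
    exact (e'.P_smul _ y).trans (opL_ro 0 c (e'.P y))
  · intro c y
    exact (e'.P_smul _ y).trans (opL_r1 0 c (e'.P y))
  · intro y
    rw [hT]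
    exact (e.P_pb e' (Gen.BGHom.f φ) t ht (Gau.gm1 0 R φ M M' u).f (map_zero _)
      (fun x y => map_add _ x y) (fun w x => gm1_opL R 0 φ M M' u hu w x) he y).symm

end

end Vale.Agent.P286.H867
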