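import Vale.Agent.P286.H374.GauE

/-!
# Product maps and gauge transition maps
-/

namespace Vale.Agent.P286.H867

open Vale.Agent.P286.H710 Vale.Agent.P286.H697 Vale.Agent.P286.H374.Gau TensorProduct Matrix

noncomputable section

set_option linter.unusedSectionVars false

variable {I : Type} [Fintype I] [DecidableEq I]

variable {k : ℕ} {y0 : Fin k → MvPolynomial (I × I) ℂ} {W0 : Type} [Ring W0] [Algebra ℂ W0]
  {n : ℕ} {y : Fin n → MvPolynomial (I × I) ℂ} {W : Type} [Ring W] [Algebra ℂ W]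
  {Q0 : WD I k y0 W0} {Q : WD I n y W}

/-- A homomorphism compatible with the generators. -/
structure ImC (Q0 : WD I k y0 W0) (Q : WD I n y W) (τ : W0 →ₐ[ℂ] W) : Prop where
  s : ∀ w, τ (Q0.s w) = Q.s (τ w)
  th : ∀ i j, τ (Q0.th i j) = Q.th i j
  P : ∀ p, τ (Q0.P p) = Q.P p
  xi : ∀ i, ∃ j, τ (Q0.xi i) = Q.xi j

theorem ImC.id (Q : WD I n y W) : ImC Q Q (AlgHom.id ℂ W) :=
  ⟨fun _ => rfl, fun _ _ => rfl, fun _ => rfl, fun i => ⟨i, rfl⟩⟩

section Rel

variable {B : Type} [CommRing B] [Algebra ℂ B]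
variable {X X' : Type} [AddCommGroup X] [Module ℂ X] [AddCommGroup X'] [Module ℂ X']

/-- A map which intertwines the operators intertwines the gauge transforms. -/
theorem rel_im {τ : W0 →ₐ[ℂ] W} (h : ImC Q0 Q τ) (R0 : Rp Q0 B (Module.End ℂ X))
    (R : Rp Q B (Module.End ℂ X')) {S : X →ₗ[ℂ] X'} (U U' : Matrix I I B)
    (hro : ∀ b, Rel S (R0.ro b) (R.ro b))
    (hr1 : ∀ b, Rel S (R0.r1 (Om.dd b)) (R.r1 (Om.dd b)))
    (hlw : ∀ w, Rel S (R0.lw w) (R.lw (τ w))) (w : W0) :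
    Rel S (R0.aU U U' w) (R.aU U U' (τ w)) := by
  have ho : ∀ M : Matrix I I B, RelM S (R0.roM M) (R.roM M) := fun M i j => hro _
  have hd : ∀ M : Matrix I I B, RelM S (R0.deM M) (R.deM M) := fun M i j => hr1 _
  have ht : RelM S (R0.lwM Q0.th) (R.lwM Q.th) := fun i j => by
    rw [Rp.lwM_apply, Rp.lwM_apply, ← h.th]
    exact hlw _
  have hf : RelM S (R0.lwM Q0.Fm) (R.lwM Q.Fm) := fun i j => by
    rw [Rp.lwM_apply, Rp.lwM_apply, WD.Fm_apply, WD.Fm_apply, ← h.P]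
    exact hlw _
  induction w using Q0.ind with
  | h1 i j =>
    rw [h.th, R0.aU_th, R.aU_th]
    exact RelM.add (RelM.mul (RelM.mul (ho _) ht) (ho _)) (RelM.mul (ho _) (hd _)) i j
  | h2 i =>
    obtain ⟨j, hj⟩ := h.xi i
    rw [hj, R0.aU_xi, R.aU_xi, ← hj]
    exact hlw _
  | h3 i j =>
    rw [h.P, R0.aU_F, R.aU_F]
    exact RelM.mul (RelM.mul (ho _) hf) (ho _) i j
  | hc c =>
    rw [AlgHom.commutes, AlgHom.commutes, AlgHom.commutes]
    intro z
    rw [Module.algebraMap_end_apply, Module.algebraMap_end_apply, map_smul]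
  | ha a b ha hb => rw [map_add, map_add, map_add]; exact ha.add hb
  | hm a b ha hb => rw [map_mul, map_mul, map_mul]; exact ha.mul hb

end Rel

section Maps

variable (τ : W0 →ₐ[ℂ] W) (V : Type) [AddCommGroup V] [Module ℂ V]
  {D V' : Type} [AddCommGroup D] [Module ℂ D] [AddCommGroup V'] [Module ℂ V']

/-- The map `τ ⊗ 1`. -/
def imT : W0 ⊗[ℂ] V →ₗ[ℂ] W ⊗[ℂ] V := TensorProduct.map τ.toLinearMap LinearMap.id

theorem imT_tmul (w : W0) (x : V) : imT τ V (w ⊗ₜ[ℂ] x) = τ w ⊗ₜ[ℂ] x := rfl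

theorem imT_lw (w : W0) (z : W0 ⊗[ℂ] V) :
    imT τ V (lw V w z) = lw V (τ w) (imT τ V z) := by
  induction z using TensorProduct.induction_on with
  | zero => simp
  | tmul a x => rw [lw_tmul, imT_tmul, imT_tmul, lw_tmul, map_mul]
  | add x y hx hy => rw [map_add, map_add, hx, hy, map_add, map_add]

variable {V}

/-- The map `a ⊗ y ↦ a (τ ⊗ 1) (p y)`. -/
def piT (p : D →ₗ[ℂ] W0 ⊗[ℂ] V) : W ⊗[ℂ] D →ₗ[ℂ] W ⊗[ℂ] V :=
  TensorProduct.lift (LinearMap.mk₂ ℂ (fun a y => lw V a (imT τ V (p y)))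
    (fun a b y => by rw [lw_add]; rfl) (fun c a y => by
      have h : lw V (c • a) = c • lw V a := map_smul (lwH W V) c a
      rw [h]
      rfl)
    (fun a x y => by rw [map_add, map_add, map_add]) (fun c a y => by
      rw [map_smul, map_smul, map_smul]))

variable (p : D →ₗ[ℂ] W0 ⊗[ℂ] V)

theorem piT_tmul (a : W) (y : D) : piT τ p (a ⊗ₜ[ℂ] y) = lw V a (imT τ V (p y)) := rfl

theorem piT_lw (a : W) (z : W ⊗[ℂ] D) : piT τ p (lw D a z) = lw V a (piT τ p z) := by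
  induction z using TensorProduct.induction_on with
  | zero => simp
  | tmul b x => rw [lw_tmul, piT_tmul, piT_tmul, lw_mul]; rfl
  | add x y hx hy => rw [map_add, map_add, hx, hy, map_add, map_add]

end Maps

section Om

variable (τ : W0 →ₐ[ℂ] W) {B : Type} [CommRing B] [Algebra ℂ B]
variable {V : Type} [AddCommGroup V] [Module ℂ V] [Module (Om ℂ B) V] [IsScalarTower ℂ (Om ℂ B) V]
variable {D : Type} [AddCommGroup D] [Module ℂ D] [Module (Om ℂ B) D] [IsScalarTower ℂ (Om ℂ B) D]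

theorem imT_ro (b : B) (z : W0 ⊗[ℂ] V) :
    imT τ V (ro V W0 b z) = ro V W b (imT τ V z) := by
  induction z using TensorProduct.induction_on with
  | zero => simp
  | tmul a x => rfl
  | add x y hx hy => simp only [map_add, hx, hy]

theorem imT_r1 {s0 : W0 →ₐ[ℂ] W0} {s : W →ₐ[ℂ] W} (hs : ∀ w, τ (s0 w) = s (τ w)) (w : Om ℂ B)
    (z : W0 ⊗[ℂ] V) : imT τ V (r1 s0 V w z) = r1 s V w (imT τ V z) := by
  induction z using TensorProduct.induction_on with
  | zero => simp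
  | tmul a x => rw [r1_tmul, imT_tmul, imT_tmul, r1_tmul, hs]
  | add x y hx hy => simp only [map_add, hx, hy]

variable {p : D →ₗ[ℂ] W0 ⊗[ℂ] V}

theorem piT_ro (b : B) (hp : ∀ y, p ((algebraMap B (Om ℂ B) b) • y) = ro V W0 b (p y))
    (z : W ⊗[ℂ] D) : piT τ p (ro D W b z) = ro V W b (piT τ p z) := by
  induction z using TensorProduct.induction_on with
  | zero => simp
  | tmul a x =>
    rw [ro_tmul, piT_tmul, piT_tmul, hp, imT_ro]
    exact (LinearMap.congr_fun (ro_lw (V := V) b a) _).symm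
  | add x y hx hy => simp only [map_add, hx, hy]

theorem piT_r1 {s0 : W0 →ₐ[ℂ] W0} {s : W →ₐ[ℂ] W} (hs : ∀ w, τ (s0 w) = s (τ w)) (w : Om ℂ B)
    (hp : ∀ y, p (w • y) = r1 s0 V w (p y)) (z : W ⊗[ℂ] D) :
    piT τ p (r1 s D w z) = r1 s V w (piT τ p z) := by
  induction z using TensorProduct.induction_on with
  | zero => simp
  | tmul a x =>
    rw [r1_tmul, piT_tmul, piT_tmul, hp, imT_r1 τ hs]
    exact LinearMap.congr_fun (lw_r1 (V := V) s a w) _
  | add x y hx hy => simp only [map_add, hx, hy]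

end Om

section Gauge

variable {A B : Type} [CommRing A] [Algebra ℂ A] [CommRing B] [Algebra ℂ B]
  {τ : W0 →ₐ[ℂ] W}

/-- The map `τ ⊗ 1` intertwines the gauge transition maps. -/
theorem imT_G (h : ImC Q0 Q τ) {M : OmM A} {M' : OmM B} (u : M.M.V →ₗ[ℂ] M'.M.V)
    (U U' : Matrix I I B) (z : W0 ⊗[ℂ] M.M.V) :
    imT τ M'.M.V (G Q0 M M' u U U' z) = G Q M M' u U U' (imT τ M.M.V z) := by
  induction z using TensorProduct.induction_on with
  | zero => simp
  | tmul w x =>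
    have h1 : Rel (imT τ M'.M.V) ((rM Q0 M').aU U U' w) ((rM Q M').aU U U' (τ w)) :=
      rel_im h (rM Q0 M') (rM Q M') U U' (fun b z => imT_ro τ b z)
        (fun b z => imT_r1 τ h.s (Om.dd b : Om ℂ B) z) (fun w z => imT_lw τ M'.M.V w z) w
    rw [G_tmul, imT_tmul, G_tmul, h1, imT_tmul, map_one]
  | add x y hx hy => simp only [map_add, hx, hy]

variable {D : OmM A} {D' : OmM B} {M : OmM A} {M' : OmM B}

/-- **The product map intertwines the gauge transition maps.** -/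
theorem piT_G (h : ImC Q0 Q τ) (p : D.M.V →ₗ[ℂ] W0 ⊗[ℂ] M.M.V)
    (p' : D'.M.V →ₗ[ℂ] W0 ⊗[ℂ] M'.M.V) (t : D.M.V →ₗ[ℂ] D'.M.V) (u : M.M.V →ₗ[ℂ] M'.M.V)
    (U U' : Matrix I I B)
    (hro : ∀ (b : B) y, p' ((algebraMap B (Om ℂ B) b) • y) = ro M'.M.V W0 b (p' y))
    (hr1 : ∀ (b : B) y, p' ((Om.dd b : Om ℂ B) • y) = r1 Q0.s M'.M.V (Om.dd b) (p' y))
    (hp : ∀ y, p' (t y) = G Q0 M M' u U U' (p y)) (z : W ⊗[ℂ] D.M.V) :
    piT τ p' (G Q D D' t U U' z) = G Q M M' u U U' (piT τ p z) := by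
  induction z using TensorProduct.induction_on with
  | zero => simp
  | tmul w x =>
    have h1 : Rel (piT τ p') ((rM Q D').aU U U' w) ((rM Q M').aU U U' w) :=
      rel_im (ImC.id Q) (rM Q D') (rM Q M') U U' (fun b z => piT_ro τ b (hro b) z)
        (fun b z => piT_r1 τ h.s (Om.dd b : Om ℂ B) (hr1 b) z) (fun w z => piT_lw τ p' w z) w
    have h2 := G_lw (Q := Q) (t := u) (U := U) (U' := U') (M := M) (M' := M') w
      (imT τ M.M.V (p x))
    rw [G_tmul, piT_tmul, h2, ← imT_G h, ← hp, h1, piT_tmul, lw_one]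
    rfl
  | add x y hx hy => simp only [map_add, hx, hy]

end Gauge

end

end Vale.Agent.P286.H867
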