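import Vale.Agent.P286.H867.FaceG
import Vale.Agent.P286.H867.PiL
import Vale.Agent.P286.H374.GauH

/-!
# The product map `Wk ⊗ Q → Wk ⊗ V` and the gauge transition maps
-/

namespace Vale.Agent.P286.H867

open Vale.Agent.P286.H847 Vale.Agent.P286.H710 Vale.Agent.P286.H374 Vale.Agent.P286.H697
  Vale.Agent.P286.H987 Vale.Agent.P286.Gen TensorProduct CategoryTheory

noncomputable section

set_option linter.unusedSectionVars false

variable (I : Type) [Fintype I] [DecidableEq I] (n : ℕ)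

/-- The inclusion of the Weil algebra is compatible with the generators. -/
theorem imC : ImC (Gau.wq I 0) (Gau.wq I n) (Wk.im I n) where
  s := im_sgA I n
  th := im_th I n
  P := im_inP I n
  xi i := i.elim0

theorem imT_im (V : Type) [AddCommGroup V] [Module ℂ V] : imT (Wk.im I n) V = imV I n V := rfl

variable {I} {N : ℕ} {Γ : Gps N} (R : Rpn Γ I)

/-- **The product map intertwines the gauge transition maps.** -/
theorem piL_gm1 {X Y : Gen.BGObj Γ} (φ : X ⟶ Y) {D M : OmM X.A.R} {D' M' : OmM Y.A.R}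
    (t : GD.Hom D.M D'.M) (u : GD.Hom M.M M'.M) (p : D.M.V →ₗ[ℂ] Wk I 0 ⊗[ℂ] M.M.V)
    (p' : D'.M.V →ₗ[ℂ] Wk I 0 ⊗[ℂ] M'.M.V)
    (hro : ∀ (b : Y.A.R) y, p' ((algebraMap Y.A.R (Om ℂ Y.A.R) b) • y) =
      Gau.ro M'.M.V (Wk I 0) b (p' y))
    (hr1 : ∀ (b : Y.A.R) y, p' ((Om.dd b : Om ℂ Y.A.R) • y) =
      Gau.r1 (Wk.sgA I 0) M'.M.V (Om.dd b) (p' y))
    (hp : ∀ y, p' (t.f y) = (Gau.gm1 0 R φ M M' u).f (p y)) (z : Wk I n ⊗[ℂ] D.M.V) :
    piL I n p' ((Gau.gm1 n R φ D D' t).f z) = (Gau.gm1 n R φ M M' u).f (piL I n p z) :=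
  piT_G (imC I n) p p' t.f u.f (R.r (Gen.BGHom.h φ)) (R.r (Gen.BGHom.h φ)⁻¹) hro hr1 hp z

end

end Vale.Agent.P286.H867
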