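import Vale.Agent.P286.H867.SrcT
import Vale.Agent.P286.H549.XiQ
import Vale.Agent.P286.H549.NFun

/-!
# Naturality of the maps to the twisted totals
-/

namespace Vale.Agent.P286.H867

open Vale.Agent.P286.H847 Vale.Agent.P286.H710 Vale.Agent.P286.H374 Vale.Agent.P286.H697
  Vale.Agent.P286.H987 Vale.Agent.P286.H64 Vale.Agent.P286.Gen Vale.Agent.P286.H761
  Vale.Agent.P286.H549 Vale.Agent.P286.H295 Vale.Agent.P286.H389 TensorProduct CategoryTheory

noncomputable section

set_option linter.unusedSectionVars false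

variable {I : Type} [Fintype I] [DecidableEq I] {n : ℕ}

/-- Linear maps over the forms commute with the action of the forms. -/
theorem map_opL {A : Type} [CommRing A] [Algebra ℂ A] {V V' : Type} [AddCommGroup V] [Module ℂ V]
    [Module (Om ℂ A) V] [IsScalarTower ℂ (Om ℂ A) V] [AddCommGroup V'] [Module ℂ V']
    [Module (Om ℂ A) V'] [IsScalarTower ℂ (Om ℂ A) V'] (v : V →ₗ[ℂ] V')
    (hv : ∀ (w : Om ℂ A) x, v (w • x) = w • v x) (E : SGD) (w : Om ℂ A) (z : E.V ⊗[ℂ] V) :
    TensorProduct.map LinearMap.id v (opL E V w z) =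
      opL E V' w (TensorProduct.map LinearMap.id v z) := by
  induction z using TensorProduct.induction_on with
  | zero => simp
  | tmul a x => rw [opL_tmul, map_add, map_tmul, map_tmul, map_tmul, opL_tmul, hv, hv]; rfl
  | add x y hx hy => simp only [map_add, hx, hy]

variable {m : ℕ} {Γ : Gps m} [hs : Algebra.Smooth ℂ (Of Γ)] {R : Rpn Γ I}

namespace Src

variable (hT : H389.Str (BGT Γ)) {K K' : GTD (BGT Γ)} {F F' : OmF (BGT Γ)} {E : OEF F n}
  {E' : OEF F' n} (S : Src R K E) (S' : Src R K' E')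
  (H : GY (gauX n R) (yop I n n) (xop I n) (1 : Wk I n))

theorem P_nat (z : GTD.Coch K K' 0) (a : EHom E E') (X : Gen.BGObj Γ)
    (hz : ∀ x : (K.F X).V, (S'.ev X).e (z.f X x) =
      TensorProduct.map LinearMap.id (a.c.f X) ((S.ev X).e x))
    (y : DR ℂ ((BGT Γ).R X) (dgm K X).M.V) :
    (S'.ev X).P (szT 0 (cA z X) y) =
      TensorProduct.map LinearMap.id (a.c.f X) ((S.ev X).P y) := by
  induction y using H710.DR.induction with
  | zero => rw [map_zero, map_zero, map_zero, map_zero]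
  | tmul w x =>
    rw [szT_tmul, Om.sgz_zero, OAct.Ev.P_tmul, OAct.Ev.P_tmul]
    refine Eq.trans ?_ (map_opL (a.c.f X) (fun w x => by
      have h := a.c.smul X w x
      rw [Om.sgz_zero] at h
      exact h) (WK I 0) w
      ((S.ev X).e x)).symm
    exact congrArg (opL (WK I 0) (F'.F X).M.V w) (hz x)
  | add x y hx hy => rw [map_add, map_add, hx, hy, map_add, map_add]

/-- **The maps to the twisted totals are natural.** -/
theorem Pi_map (z : GTD.Coch K K' 0) (a : EHom E E')
    (hz : ∀ (X : Gen.BGObj Γ) (x : (K.F X).V), (S'.ev X).e (z.f X x) =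
      TensorProduct.map LinearMap.id (a.c.f X) ((S.ev X).e x))
    (v : ((gauX n R).Xi (DRF hT K)).V) :
    (H.map a).f ((S.Pi hT H).f v) = (S'.Pi hT H).f (((gauX n R).xi (DRF.coch hT z)).f v) :=
  H.ofNat_map E E' (S.nt hT H) (fun X t z => S.app_e hT X t z) (S'.nt hT H)
    (fun X t z => S'.app_e hT X t z) a (DRF.coch hT z)
    (fun X y => (piL_nat I n (S.ev X).P ((DRF.coch hT z).f X) (a.c.f X) (S'.ev X).P
      (fun y => S.P_nat S' z a X (hz X) y) y).symm) v

end Src

section SrcT

/-- The cochains of degree zero. -/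
theorem smap_zero {W : SGD} {M M' : GD} (f : M.V →ₗ[ℂ] M'.V) (z : W.V ⊗[ℂ] M.V) :
    LM.smap W (M := M) (N := M') 0 f z = TensorProduct.map LinearMap.id f z := by
  induction z using TensorProduct.induction_on with
  | zero => rw [map_zero, map_zero]
  | tmul w x => rw [LM.smap_tmul, H64.sgp_zero, map_tmul]; rfl
  | add x y hx hy => rw [map_add, map_add, hx, hy]

/-- The evaluation and the maps of jets. -/
theorem evG_map {A : Type} [CommRing A] [Algebra ℂ A] {W : SGD} {Y : LM.Yop n W} {P P' : LM n}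
    (φ : P.V →ₗ[ℂ] P'.V) (x : J A (thA Y P A).V) :
    evG (thA Y P' A) (jz Y A 0 φ x) = thz W A 0 φ (evG (thA Y P A) x) :=
  J.ev_map (thl Y A 0 φ) (fun a x => thz_tvs 0 φ a x) x

variable (R)

theorem evT_nat {P P' : LM n} (z : LM.Coch P P' 0) (u : LM.Hom P P') (hu : u.f = z.f)
    (X : Gen.BGObj Γ) (x : ((thN R P).F X).V) :
    (evT R P' X).e (((thS (H459.gauT R 0 n)).co' z).f X x) =
      TensorProduct.map LinearMap.id ((cstH (Γ := Γ) u).c.f X) ((evT R P X).e x) := by
  refine (evT_e R P' X _).trans ((evG_map z.f x).trans ?_)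
  rw [← hu]
  exact smap_zero (W := WK I 0) (M := (LM.tensL (OmS X.A.R) P).toGD)
    (M' := (LM.tensL (OmS X.A.R) P').toGD) (LM.smap (OmS X.A.R) 0 u.f)
    (evG (thA (yop I 0 n) P X.A.R) x)

end SrcT

end

end Vale.Agent.P286.H867
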