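import Vale.Agent.P286.H867.Prd
import Vale.Agent.P286.H847.Ten

/-!
# The action of the forms on a tensor product `E ⊗ F`, where `F` is a differential graded module
over the forms
-/

namespace Vale.Agent.P286.H867

open Vale.Agent.P286.H710 Vale.Agent.P286.H847 Vale.Agent.P286.H697 TensorProduct

noncomputable section

variable {A B : Type} [CommRing A] [Algebra ℂ A] [CommRing B] [Algebra ℂ B]

/-- The even part of a form. -/
def oev (A : Type) [CommRing A] [Algebra ℂ A] : Om ℂ A →ₗ[ℂ] Om ℂ A where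
  toFun w := (1 / 2 : ℂ) • (w + Om.sg w)
  map_add' w w' := by rw [map_add, ← smul_add]; congr 1; abel
  map_smul' c w := by rw [Om.sg_csmul, ← smul_add, smul_comm]; rfl

/-- The odd part of a form. -/
def ood (A : Type) [CommRing A] [Algebra ℂ A] : Om ℂ A →ₗ[ℂ] Om ℂ A where
  toFun w := (1 / 2 : ℂ) • (w - Om.sg w)
  map_add' w w' := by rw [map_add, ← smul_add]; congr 1; abel
  map_smul' c w := by rw [Om.sg_csmul, ← smul_sub, smul_comm]; rfl

theorem oev_apply (w : Om ℂ A) : oev A w = (1 / 2 : ℂ) • (w + Om.sg w) := rfl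

theorem ood_apply (w : Om ℂ A) : ood A w = (1 / 2 : ℂ) • (w - Om.sg w) := rfl

theorem half_add (w : Om ℂ A) : (1 / 2 : ℂ) • (w + w) = w := by
  rw [← two_smul ℂ w, smul_smul]
  norm_num

theorem oev_add_ood (w : Om ℂ A) : oev A w + ood A w = w := by
  rw [oev_apply, ood_apply, ← smul_add]
  rw [show w + Om.sg w + (w - Om.sg w) = w + w by abel, half_add]

theorem oev_sub_ood (w : Om ℂ A) : oev A w - ood A w = Om.sg w := by
  rw [oev_apply, ood_apply, ← smul_sub]
  rw [show w + Om.sg w - (w - Om.sg w) = Om.sg w + Om.sg w by abel, half_add]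

theorem osg_sg (w : Om ℂ A) : Om.sg (Om.sg w) = w := CliffordAlgebra.involute_involute w

theorem sg_oev (w : Om ℂ A) : Om.sg (oev A w) = oev A w := by
  rw [oev_apply, Om.sg_csmul, map_add, osg_sg, add_comm]

theorem sg_ood (w : Om ℂ A) : Om.sg (ood A w) = - ood A w := by
  rw [ood_apply, Om.sg_csmul, map_sub, osg_sg, ← smul_neg, neg_sub]

theorem oev_of {w : Om ℂ A} (h : Om.sg w = w) : oev A w = w := by
  rw [oev_apply, h, half_add]

theorem ood_of {w : Om ℂ A} (h : Om.sg w = w) : ood A w = 0 := by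
  rw [ood_apply, h, sub_self, smul_zero]

theorem oev_of' {w : Om ℂ A} (h : Om.sg w = -w) : oev A w = 0 := by
  rw [oev_apply, h, add_neg_cancel, smul_zero]

theorem ood_of' {w : Om ℂ A} (h : Om.sg w = -w) : ood A w = w := by
  rw [ood_apply, h, sub_neg_eq_add, half_add]

theorem sg_alg (a : A) : Om.sg (algebraMap A (Om ℂ A) a) = algebraMap A (Om ℂ A) a :=
  AlgHom.commutes _ _

theorem sg_one' : Om.sg (1 : Om ℂ A) = 1 := map_one _

theorem oev_mul (w w' : Om ℂ A) : oev A (w * w') = oev A w * oev A w' + ood A w * ood A w' := by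
  conv_lhs => rw [← oev_add_ood w, ← oev_add_ood w']
  rw [add_mul, mul_add, mul_add, map_add, map_add, map_add,
    oev_of (w := oev A w * oev A w') (by rw [map_mul, sg_oev, sg_oev]),
    oev_of' (w := oev A w * ood A w') (by rw [map_mul, sg_oev, sg_ood, mul_neg]),
    oev_of' (w := ood A w * oev A w') (by rw [map_mul, sg_oev, sg_ood, neg_mul]),
    oev_of (w := ood A w * ood A w') (by rw [map_mul, sg_ood, sg_ood, neg_mul_neg])]
  abel

theorem ood_mul (w w' : Om ℂ A) : ood A (w * w') = oev A w * ood A w' + ood A w * oev A w' := by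
  conv_lhs => rw [← oev_add_ood w, ← oev_add_ood w']
  rw [add_mul, mul_add, mul_add, map_add, map_add, map_add,
    ood_of (w := oev A w * oev A w') (by rw [map_mul, sg_oev, sg_oev]),
    ood_of' (w := oev A w * ood A w') (by rw [map_mul, sg_oev, sg_ood, mul_neg]),
    ood_of' (w := ood A w * oev A w') (by rw [map_mul, sg_oev, sg_ood, neg_mul]),
    ood_of (w := ood A w * ood A w') (by rw [map_mul, sg_ood, sg_ood, neg_mul_neg])]
  abel

theorem d_oev (w : Om ℂ A) : Om.d (oev A w) = ood A (Om.d w) := by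
  rw [oev_apply, ood_apply, Om.d_csmul, Om.d_add, Om.d_sg, sub_eq_add_neg]

theorem d_ood (w : Om ℂ A) : Om.d (ood A w) = oev A (Om.d w) := by
  rw [oev_apply, ood_apply, Om.d_csmul, Om.d_sub, Om.d_sg, sub_neg_eq_add]

theorem pb_oev (f : A →ₐ[ℂ] B) (w : Om ℂ A) : Om.pb f (oev A w) = oev B (Om.pb f w) := by
  rw [oev_apply, oev_apply, Om.pb_csmul, map_add, Om.pb_sg]

theorem pb_ood (f : A →ₐ[ℂ] B) (w : Om ℂ A) : Om.pb f (ood A w) = ood B (Om.pb f w) := by
  rw [ood_apply, ood_apply, Om.pb_csmul, map_sub, Om.pb_sg]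

section Op

variable (E : SGD) (V : Type) [AddCommGroup V] [Module ℂ V] [Module (Om ℂ A) V]
  [IsScalarTower ℂ (Om ℂ A) V]

/-- The operator `1 ⊗ w`, without sign. -/
def rw0 (w : Om ℂ A) : E.V ⊗[ℂ] V →ₗ[ℂ] E.V ⊗[ℂ] V :=
  TensorProduct.map LinearMap.id (Algebra.lsmul ℂ ℂ V w)

/-- The operator `sg ⊗ w`. -/
def rw1 (w : Om ℂ A) : E.V ⊗[ℂ] V →ₗ[ℂ] E.V ⊗[ℂ] V :=
  TensorProduct.map E.sg (Algebra.lsmul ℂ ℂ V w)

theorem rw0_tmul (w : Om ℂ A) (a : E.V) (x : V) :
    rw0 E V w (a ⊗ₜ x) = a ⊗ₜ (w • x) := rfl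

theorem rw1_tmul (w : Om ℂ A) (a : E.V) (x : V) :
    rw1 E V w (a ⊗ₜ x) = E.sg a ⊗ₜ (w • x) := rfl

/-- The action of the forms on `E ⊗ V`. -/
def opL : Om ℂ A →ₐ[ℂ] Module.End ℂ (E.V ⊗[ℂ] V) :=
  AlgHom.ofLinearMap
    { toFun := fun w => rw0 E V (oev A w) + rw1 E V (ood A w)
      map_add' := fun w w' => by
        apply TensorProduct.ext'
        intro a x
        simp only [LinearMap.add_apply, rw0_tmul, rw1_tmul, map_add, add_smul, tmul_add]
        abel
      map_smul' := fun c w => by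
        apply TensorProduct.ext'
        intro a x
        simp only [LinearMap.add_apply, LinearMap.smul_apply, rw0_tmul, rw1_tmul, map_smul,
          smul_assoc, tmul_smul, smul_add, RingHom.id_apply] }
    (by
      apply TensorProduct.ext'
      intro a x
      change rw0 E V (oev A 1) (a ⊗ₜ x) + rw1 E V (ood A 1) (a ⊗ₜ x) = a ⊗ₜ x
      rw [oev_of sg_one', ood_of sg_one', rw0_tmul, rw1_tmul, one_smul, zero_smul, tmul_zero,
        add_zero])
    (fun w w' => by
      apply TensorProduct.ext'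
      intro a x
      change rw0 E V (oev A (w * w')) (a ⊗ₜ x) + rw1 E V (ood A (w * w')) (a ⊗ₜ x) =
        rw0 E V (oev A w) (rw0 E V (oev A w') (a ⊗ₜ x) + rw1 E V (ood A w') (a ⊗ₜ x)) +
        rw1 E V (ood A w) (rw0 E V (oev A w') (a ⊗ₜ x) + rw1 E V (ood A w') (a ⊗ₜ x))
      rw [map_add, map_add]
      simp only [rw0_tmul, rw1_tmul, oev_mul, ood_mul, add_smul, tmul_add, mul_smul, E.sg_sg]
      abel)

theorem opL_tmul (w : Om ℂ A) (a : E.V) (x : V) :
    opL E V w (a ⊗ₜ x) = a ⊗ₜ (oev A w • x) + E.sg a ⊗ₜ (ood A w • x) := rfl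

theorem opL_eq (w : Om ℂ A) (z : E.V ⊗[ℂ] V) :
    opL E V w z = rw0 E V (oev A w) z + rw1 E V (ood A w) z := rfl

theorem opL_even {w : Om ℂ A} (h : Om.sg w = w) (z : E.V ⊗[ℂ] V) : opL E V w z = rw0 E V w z := by
  have h0 : rw1 E V (0 : Om ℂ A) = 0 := by
    apply TensorProduct.ext'
    intro a x
    rw [rw1_tmul, zero_smul, tmul_zero, LinearMap.zero_apply]
  rw [opL_eq, oev_of h, ood_of h, h0, LinearMap.zero_apply, add_zero]

theorem opL_odd {w : Om ℂ A} (h : Om.sg w = -w) (z : E.V ⊗[ℂ] V) :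
    opL E V w z = rw1 E V w z := by
  have h0 : rw0 E V (0 : Om ℂ A) = 0 := by
    apply TensorProduct.ext'
    intro a x
    rw [rw0_tmul, zero_smul, tmul_zero, LinearMap.zero_apply]
  rw [opL_eq, oev_of' h, ood_of' h, h0, LinearMap.zero_apply, zero_add]

theorem opL_alg (c : A) (z : E.V ⊗[ℂ] V) :
    opL E V (algebraMap A (Om ℂ A) c) z = rw0 E V (algebraMap A (Om ℂ A) c) z :=
  opL_even E V (sg_alg c) z

end Op

/-- The action of the forms on the tensor product. -/
def OT (E : SGD) (F : GD) [Module (Om ℂ A) F.V] [IsScalarTower ℂ (Om ℂ A) F.V]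
    (leib : ∀ (w : Om ℂ A) (x : F.V), F.d (w • x) = Om.d w • x + Om.sg w • F.d x)
    (hgr : ∀ (p : ℕ) (m : ℤ) (w : Om ℂ A) (x : F.V), w ∈ Om.gr ℂ A p → x ∈ F.gr m →
      w • x ∈ F.gr (m + p)) : OAct A (SGD.tens E F) where
  L := opL E F.V
  leib w z := by
    change E.V ⊗[ℂ] F.V at z
    change SGD.td E F (opL E F.V w z) = opL E F.V (Om.d w) z + opL E F.V (Om.sg w) (SGD.td E F z)
    induction z using TensorProduct.induction_on with
    | zero => simp
    | tmul a x =>
      have h1 : oev A (Om.sg w) = oev A w := by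
        rw [oev_apply, oev_apply, osg_sg, add_comm]
      have h2 : ood A (Om.sg w) = - ood A w := by
        rw [ood_apply, ood_apply, osg_sg, ← smul_neg, neg_sub]
      have h3 : ∀ (w : Om ℂ A) (x : F.V), (-w) • x = -(w • x) := fun w x => neg_smul w x
      rw [opL_tmul, map_add, SGD.td_tmul, SGD.td_tmul, SGD.td_tmul, map_add, opL_tmul, opL_tmul,
        opL_tmul, leib, leib, sg_oev, sg_ood, d_oev, d_ood, h1, h2, E.sg_sg, E.sg_d]
      simp only [h3, tmul_add, neg_tmul, tmul_neg]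
      abel
    | add z z' hz hz' =>
      rw [map_add, map_add, hz, hz', map_add, map_add, map_add]
      abel
  deg p m w z hw hz := by
    change E.V ⊗[ℂ] F.V at z
    change opL E F.V w z ∈ SGD.tgr E.toGD F (p + m)
    have hs : ∀ i j a x, i + j = m → a ∈ E.gr i → x ∈ F.gr j →
        a ⊗ₜ[ℂ] (w • x) ∈ SGD.tgr E.toGD F (p + m) := fun i j a x h ha hx =>
      SGD.tmul_mem (by rw [← h]; ring) ha (hgr p j w x hw hx)
    rcases Nat.even_or_odd p with hp | hp
    · have h : Om.sg w = w := by rw [Om.sg_gr hw, hp.neg_one_pow, one_mul]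
      rw [opL_even E F.V h]
      exact SGD.map_tgr (T := rw0 E F.V w) (fun i j a x h ha hx => hs i j a x h ha hx) hz
    · have h : Om.sg w = -w := by rw [Om.sg_gr hw, hp.neg_one_pow, neg_one_mul]
      rw [opL_odd E F.V h]
      exact SGD.map_tgr (T := rw1 E F.V w)
        (fun i j a x h ha hx => hs i j (E.sg a) x h (E.sg_mem ha) hx) hz

end

end Vale.Agent.P286.H867
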