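import Vale.Agent.P286.H697.DRq2

/-!
# The product map from a de Rham complex to a graded differential space with an action of the
forms
-/

namespace Vale.Agent.P286.H867

open Vale.Agent.P286.H710 Vale.Agent.P286.H847 Vale.Agent.P286.H697 TensorProduct

noncomputable section

variable {A B : Type} [CommRing A] [Algebra ℂ A] [CommRing B] [Algebra ℂ B]

section Bal

variable {M V : Type} [AddCommGroup M] [Module ℂ M] [Module A M] [IsScalarTower ℂ A M]
  [AddCommGroup V] [Module ℂ V]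

/-- The map `w ⊗ x ↦ w · e x`. -/
def prdA (L : Om ℂ A →ₐ[ℂ] Module.End ℂ V) (e : M →ₗ[ℂ] V)
    (he : ∀ (a : A) x, e (a • x) = L (algebraMap A _ a) (e x)) : DR ℂ A M →+ V :=
  TensorProduct.liftAddHom
    { toFun := fun w => (L w).toAddMonoidHom.comp e.toAddMonoidHom
      map_zero' := by ext x; simp
      map_add' := fun w w' => by ext x; simp }
    (fun a w x => by
      change L (a • w) (e x) = L w (e (a • x))
      rw [he, Algebra.smul_def, Algebra.commutes, map_mul]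
      rfl)

theorem prdA_tmul (L : Om ℂ A →ₐ[ℂ] Module.End ℂ V) (e : M →ₗ[ℂ] V)
    (he : ∀ (a : A) x, e (a • x) = L (algebraMap A _ a) (e x)) (w : Om ℂ A) (x : M) :
    prdA L e he (w ⊗ₜ[A] x) = L w (e x) := rfl

/-- The product map is compatible with the action of the forms. -/
theorem prdA_smul (L : Om ℂ A →ₐ[ℂ] Module.End ℂ V) (e : M →ₗ[ℂ] V)
    (he : ∀ (a : A) x, e (a • x) = L (algebraMap A _ a) (e x)) (w : Om ℂ A) (y : DR ℂ A M) :
    prdA L e he (w • y) = L w (prdA L e he y) := by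
  induction y using DR.induction with
  | zero => simp
  | tmul w' x => rw [smul_tmul', smul_eq_mul, prdA_tmul, prdA_tmul, map_mul]; rfl
  | add x y hx hy => rw [smul_add, map_add, map_add, hx, hy, map_add]

/-- The product map as a linear map. -/
def prd (L : Om ℂ A →ₐ[ℂ] Module.End ℂ V) (e : M →ₗ[ℂ] V)
    (he : ∀ (a : A) x, e (a • x) = L (algebraMap A _ a) (e x)) : DR ℂ A M →ₗ[ℂ] V where
  toFun := prdA L e he
  map_add' := map_add _
  map_smul' c y := by
    rw [csmul_eq, prdA_smul, AlgHom.commutes]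
    rfl

theorem prd_tmul (L : Om ℂ A →ₐ[ℂ] Module.End ℂ V) (e : M →ₗ[ℂ] V)
    (he : ∀ (a : A) x, e (a • x) = L (algebraMap A _ a) (e x)) (w : Om ℂ A) (x : M) :
    prd L e he (w ⊗ₜ[A] x) = L w (e x) := rfl

theorem prd_smul (L : Om ℂ A →ₐ[ℂ] Module.End ℂ V) (e : M →ₗ[ℂ] V)
    (he : ∀ (a : A) x, e (a • x) = L (algebraMap A _ a) (e x)) (w : Om ℂ A) (y : DR ℂ A M) :
    prd L e he (w • y) = L w (prd L e he y) := prdA_smul L e he w y

end Bal

/-- A graded differential space on which the forms act. -/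
structure OAct (A : Type) [CommRing A] [Algebra ℂ A] (V : GD) where
  L : Om ℂ A →ₐ[ℂ] Module.End ℂ V.V
  leib : ∀ (w : Om ℂ A) (x : V.V), V.d (L w x) = L (Om.d w) x + L (Om.sg w) (V.d x)
  deg : ∀ (p : ℕ) (m : ℤ) (w : Om ℂ A) (x : V.V), w ∈ Om.gr ℂ A p → x ∈ V.gr m →
    L w x ∈ V.gr (p + m)

namespace OAct

variable {V V' : GD} (a : OAct A V)

/-- The data for the product map. -/
structure Ev (b : DB ℂ A) (K : DGM A) (a : OAct A V) where
  e : K.M.V →ₗ[ℂ] V.V
  lin : ∀ (c : A) x, e (c • x) = a.L (algebraMap A _ c) (e x)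
  comm : ∀ x, e (K.M.d x) + ∑ i, a.L (Om.dd (b.x i)) (e (K.C.act (b.v i) x)) = V.d (e x)
  deg : ∀ (m : ℤ) x, x ∈ K.M.gr m → e x ∈ V.gr m

variable {b : DB ℂ A} {K : DGM A} {a}

/-- The product map, as a linear map. -/
def Ev.P (E : Ev b K a) : DR ℂ A K.M.V →ₗ[ℂ] V.V := prd a.L E.e E.lin

theorem Ev.P_tmul (E : Ev b K a) (w : Om ℂ A) (x : K.M.V) :
    E.P (w ⊗ₜ[A] x) = a.L w (E.e x) := rfl

theorem Ev.P_smul (E : Ev b K a) (w : Om ℂ A) (y : DR ℂ A K.M.V) :
    E.P (w • y) = a.L w (E.P y) := prd_smul _ _ _ w y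

theorem Ev.P_D (E : Ev b K a) (y : DR ℂ A K.M.V) : E.P (K.D b y) = V.d (E.P y) := by
  induction y using DR.induction with
  | zero => simp
  | tmul w x =>
    have h1 : E.P (nab b K.C x) = ∑ i, a.L (Om.dd (b.x i)) (E.e (K.C.act (b.v i) x)) := by
      rw [nab_apply, map_sum]
      rfl
    rw [DGM.D_apply, dR_tmul, sgT_tmul, map_add, map_add, E.P_tmul, E.P_smul, E.P_tmul, E.P_tmul,
      a.leib, h1, ← E.comm, map_add, DGM.dA_apply]
    abel
  | add x y hx hy => rw [map_add, map_add, map_add, hx, hy, map_add]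

theorem Ev.P_deg (E : Ev b K a) (m : ℤ) (y : DR ℂ A K.M.V) (hy : y ∈ K.gr m) :
    E.P y ∈ V.gr m := by
  induction hy using K.gr_ind with
  | zero => rw [map_zero]; exact zero_mem _
  | tmul p i hpi w hw x hx =>
    rw [E.P_tmul, ← hpi]
    exact a.deg p i w _ hw (E.deg i x hx)
  | add x y _ _ hx hy => rw [map_add]; exact add_mem hx hy

/-- The product map. -/
def Ev.hom (E : Ev b K a) : GD.Hom (DGM.DRg b K) V where
  f := E.P
  comm y := E.P_D y
  deg m y hy := E.P_deg m y hy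

theorem Ev.hom_f (E : Ev b K a) (y : DR ℂ A K.M.V) : E.hom.f y = E.P y := rfl

/-- The product map is compatible with pull-backs. -/
theorem Ev.P_pb (E : Ev b K a) {b' : DB ℂ B} {K' : DGM B} {a' : OAct B V'} (E' : Ev b' K' a')
    (f : A →ₐ[ℂ] B) (t : K.M.V →+ K'.M.V) (ht : ∀ (c : A) m, t (c • m) = f c • t m)
    (T : V.V → V'.V) (hz : T 0 = 0) (hT : ∀ x y, T (x + y) = T x + T y)
    (hL : ∀ w x, T (a.L w x) = a'.L (Om.pb f w) (T x)) (he : ∀ x, T (E.e x) = E'.e (t x))
    (y : DR ℂ A K.M.V) : T (E.P y) = E'.P (pbT f t ht y) := by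
  induction y using DR.induction with
  | zero => rw [map_zero, map_zero, map_zero, hz]
  | tmul w x => rw [pbT_tmul, E.P_tmul, E'.P_tmul, hL, he]
  | add x y hx hy => rw [map_add, map_add, map_add, hT, hx, hy]

end OAct

end

end Vale.Agent.P286.H867
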