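import Vale.Agent.P286.H867.SrcT
import Vale.Agent.P286.H549.PtDR
import Vale.Agent.P286.H549.GyI
import Vale.Agent.P286.H64.WInst
import Vale.Agent.P286.H64.EpsN
import Vale.Agent.P286.H621.Sig

/-!
# The value at the point
-/

namespace Vale.Agent.P286.H867

open Vale.Agent.P286.H847 Vale.Agent.P286.H710 Vale.Agent.P286.H374 Vale.Agent.P286.H697
  Vale.Agent.P286.H987 Vale.Agent.P286.H64 Vale.Agent.P286.Gen Vale.Agent.P286.H761
  Vale.Agent.P286.H549 Vale.Agent.P286.H295 Vale.Agent.P286.H389 Vale.Agent.P286.H353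
  Vale.Agent.P286.H621 Vale.Agent.P286.St TensorProduct CategoryTheory

noncomputable section

set_option linter.unusedSectionVars false

variable {N : ℕ} {Γ : Gps N} [hs : Algebra.Smooth ℂ (Of Γ)] {I : Type} [Fintype I]
  [DecidableEq I] {n : ℕ} (R : Rpn Γ I) (hT : H389.Str (BGT Γ)) (P : LM n)

/-- The value on constants. -/
theorem pt_one (y : J (BPt Γ).A.R (thA (yop I 0 n) P (BPt Γ).A.R).V) :
    ((srcT R P).pt hT).f ((1 : Om ℂ ((BGT Γ).R (BPt Γ))) ⊗ₜ[(BGT Γ).R (BPt Γ)]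
      (y : (dgm (thN R P) (BPt Γ)).M.V)) =
      epV I 0 (Om ℂ (BPt Γ).A.R ⊗[ℂ] P.V) (evG (thA (yop I 0 n) P (BPt Γ).A.R) y) := by
  refine ((srcT R P).pt_f hT _).trans (congrArg (epV I 0 (Om ℂ (BPt Γ).A.R ⊗[ℂ] P.V)) ?_)
  refine (OAct.Ev.P_tmul _ _ _).trans ?_
  rw [map_one]
  exact evT_e R P (BPt Γ) y

section Eps

variable {A : Type} [CommRing A] [Algebra ℂ A] (hA : ∀ a : A, ∃ c : ℂ, algebraMap ℂ A c = a)
  (aug : A →ₐ[ℂ] ℂ)

theorem epsC_epV (z : Wk I 0 ⊗[ℂ] (Om ℂ A ⊗[ℂ] P.V)) :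
    (epsC hA aug P.toGD).f (epV I 0 (Om ℂ A ⊗[ℂ] P.V) z) = epsV (ctrW I n) aug P z := by
  change TV (WK I 0) P A at z
  induction z using TV.ind with
  | zero => simp only [map_zero]
  | tmul w u x =>
    refine Eq.trans ?_ (epsV_tmul (ctrW I n) aug (N := P) w u x).symm
    refine (congrArg (epsC hA aug P.toGD).f (epV_tmul I 0 w (u ⊗ₜ[ℂ] x))).trans ?_
    rw [map_smul, epsC_tmul, smul_smul, mul_comm]
    rfl
  | add x y hx hy => simp only [map_add, hx, hy]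

theorem qis_epsC : GD.Qis (epsC hA aug P.toGD) :=
  qis_of_inv _ (jC A P).toHom (epsC_jC hA aug P) (jC_epsC hA aug P)

end Eps

theorem coch_one {T : TSite} (hT : H389.Str T) {K L : GTD T} (z : GTD.Coch K L 0) (X : T.C)
    (x : (dgm K X).M.V) : (DRF.coch hT z).f X ((1 : Om ℂ (T.R X)) ⊗ₜ[T.R X] x) =
      (1 : Om ℂ (T.R X)) ⊗ₜ[T.R X] cA z X x := by
  rw [DRF.coch_tmul, Om.sgz_zero]

/-- The de Rham complex of the sum map at the point. -/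
theorem sig_one (x : (dgm (oT (thN R P)) (BPt Γ)).M.V) :
    (DRF.coch hT (sigZ (thN R P))).f (BPt Γ)
      ((1 : Om ℂ ((BGT Γ).R (BPt Γ))) ⊗ₜ[(BGT Γ).R (BPt Γ)] x) =
      (1 : Om ℂ ((BGT Γ).R (BPt Γ))) ⊗ₜ[(BGT Γ).R (BPt Γ)] cA (sigZ (thN R P)) (BPt Γ) x :=
  coch_one hT (sigZ (thN R P)) (BPt Γ) x

theorem qis_congr {M M' : GD} {u w : GD.Hom M M'} (h : ∀ x, u.f x = w.f x) (hw : GD.Qis w) :
    GD.Qis u := by
  rw [homx h]
  exact hw

/-- **The value at the point is a quasi-isomorphism.** -/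
theorem ptq_gen {K' : GTD (BGT Γ)} (σ : GTD.Coch K' (thN R P) 0)
    (s : GD.Hom (K'.F (BPt Γ)) ((thN R P).F (BPt Γ))) (hs : ∀ x, s.f x = σ.f (BPt Γ) x)
    (hq : GD.Qis s)
    (b0 : GD.Hom ((DRF hT K').F (BPt Γ)).M ((DRF hT (thN R P)).F (BPt Γ)).M)
    (hb0 : ∀ x, b0.f x = (DRF.coch hT σ).f (BPt Γ) x) :
    GD.Qis (((srcT R P).pt hT).comp b0) := by
  refine GD.Qis.of_comp_right (qis_insD pt_const (bT (BGT Γ) (BPt Γ)) (dgm K' (BPt Γ))) ?_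
  refine GD.Qis.of_comp_left (qis_epsC P pt_const (augP Γ)) ?_
  refine qis_congr (w := (epsPt (ctrW I n) Γ P).comp s) (fun x => ?_)
    ((epsPt_qis (ctrW I n) P).comp hq)
  refine (congrArg (fun y => (epsC pt_const (augP Γ) P.toGD).f (((srcT R P).pt hT).f y))
    ((hb0 _).trans (coch_one hT σ (BPt Γ) x))).trans ?_
  refine (congrArg (epsC pt_const (augP Γ) P.toGD).f (pt_one R hT P _)).trans ?_
  refine (epsC_epV P pt_const (augP Γ) _).trans ?_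
  exact congrArg (epsPt (ctrW I n) Γ P).f (hs x).symm

theorem ptq (b0 : GD.Hom ((DRF hT (oT (thN R P))).F (BPt Γ)).M ((DRF hT (thN R P)).F (BPt Γ)).M)
    (hb0 : ∀ x, b0.f x = (DRF.coch hT (sigZ (thN R P))).f (BPt Γ) x) :
    GD.Qis (((srcT R P).pt hT).comp b0) :=
  ptq_gen R hT P (sigZ (thN R P)) (sigH (thN R P) (BPt Γ)) (fun _ => rfl)
    (sigQ (thN R P) (BPt Γ)) b0 hb0

end

end Vale.Agent.P286.H867
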