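import Vale.Agent.P286.H867.ZLf
import Vale.Agent.P286.H103.ZM
import Vale.Agent.P286.H621.Asm

/-!
# The two natural quasi-isomorphisms
-/

namespace Vale.Agent.P286.H867

/-- **The two natural quasi-isomorphisms, for all representations.** -/
theorem rst : H621.Rst := fun R n hE0 => ⟨H103.zM_R R n hE0, zL_R R n hE0⟩

end Vale.Agent.P286.H867
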