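import Vale.Agent.P286.H867.FaceE
import Vale.Agent.P286.H761.Gx
import Vale.Agent.P286.H549.XiW
import Vale.Agent.P286.H549.WkC
import Vale.Agent.P286.H459.ThSI

/-!
# The map from `Xi` of a de Rham complex to a twisted total
-/

namespace Vale.Agent.P286.H867

open Vale.Agent.P286.H847 Vale.Agent.P286.H710 Vale.Agent.P286.H374 Vale.Agent.P286.H697
  Vale.Agent.P286.H987 Vale.Agent.P286.H64 Vale.Agent.P286.Gen Vale.Agent.P286.H761
  Vale.Agent.P286.H549 Vale.Agent.P286.H295 TensorProduct CategoryTheory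

noncomputable section

set_option linter.unusedSectionVars false

variable {I : Type} [Fintype I] [DecidableEq I] {n : ℕ} {N : ℕ} {Γ : Gps N}
  [hs : Algebra.Smooth ℂ (Of Γ)] (R : Rpn Γ I)

/-- The gauge maps of the twisted tensor product. -/
def gtw {F : OmF (BGT Γ)} (E : OEF F n) {X Y : Gen.BGObj Γ} (φ : X ⟶ Y) :
    GD.Hom (LM.tw (yop I 0 n) (E.E X).lm) (LM.tw (yop I 0 n) (E.E Y).lm) :=
  (H459.gauT R 0 n).tw E φ

/-- Compatible evaluations of a complex of `D`-modules in a twisted tensor product. -/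
structure Src (K : GTD (BGT Γ)) {F : OmF (BGT Γ)} (E : OEF F n) where
  ev : ∀ X : Gen.BGObj Γ, OAct.Ev (bT (BGT Γ) X) (dgm K X) ((E.E X).act (yop I 0 n))
  nat : ∀ {X Y : Gen.BGObj Γ} (φ : X ⟶ Y) (x : (K.F X).V),
    (gtw R E φ).f ((ev X).e x) = (ev Y).e ((K.tr φ).f x)

namespace Src

variable {R} (hT : H389.Str (BGT Γ)) {K : GTD (BGT Γ)} {F : OmF (BGT Γ)} {E : OEF F n}
  (S : Src R K E) (H : GY (gauX n R) (yop I n n) (xop I n) (1 : Wk I n))

/-- The map at a test object. -/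
def app (X : Gen.BGObj Γ) : GD.Hom (SGD.tens (WK I n) ((DRF hT K).F X).M)
    (LM.tw (yop I n n) (E.E X).lm) := piH I (P := (E.E X).lm) (S.ev X).hom

theorem app_f (X : Gen.BGObj Γ) (z : Wk I n ⊗[ℂ] ((DRF hT K).F X).M.V) :
    (S.app hT X).f z = piL I n (S.ev X).P z := rfl

theorem app_nat {X Y : Gen.BGObj Γ} (φ : X ⟶ Y) (z : Wk I n ⊗[ℂ] ((DRF hT K).F X).M.V) :
    (S.app hT Y).f (((gauX n R).map (DRF hT K) φ).f z) =
      ((gauX n R).map F φ).f ((S.app hT X).f z) :=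
  piL_ev (I := I) R φ (tA K φ) (tA_smul K φ) (drt hT K φ) (fun _ => rfl)
    (M := fib F X) (M' := fib F Y) (fibt F φ) (fibt_smul F φ) (E := E.E X) (E' := E.E Y)
    (S.ev X) (S.ev Y) (fun x => S.nat φ x) z

/-- The natural transformation. -/
def nt : GF.Nat' ((gauX n R).wk (DRF hT K)) (H.glm E).tw where
  app X := S.app hT X
  nat φ z := S.app_nat hT φ z

/-- The maps commute with the derivatives. -/
theorem app_e (X : Gen.BGObj Γ) (t : Fin n) (z : Wk I n ⊗[ℂ] ((DRF hT K).F X).M.V) :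
    (S.app hT X).f (((gauX n R).e t).rTensor ((DRF hT K).F X).M.V z) =
      ((gauX n R).e t).rTensor (F.F X).M.V ((S.app hT X).f z) :=
  piL_e I n (S.ev X).P t z

/-- **The map from `Xi` of the de Rham complex to the twisted total.** -/
def Pi : LM.Hom ((gauX n R).Xi (DRF hT K)) (H.XiTw E) :=
  H.ofNat E (S.nt hT H) (fun X t z => S.app_e hT X t z)

theorem Pi_apply (v : ((gauX n R).Xi (DRF hT K)).V) (k : ℕ) :
    ((S.Pi hT H).f v : ∀ k, Wk I n ⊗[ℂ] (F.F ((ptS Γ).P k)).M.V) k =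
      piL I n (S.ev ((ptS Γ).P k)).P (v k) :=
  CS.Mor.tot_apply ((S.nt hT H).cs (ptS Γ).co) v k

/-- The value at the point. -/
def pt : GD.Hom ((DRF hT K).F (BPt Γ)).M (F.F (BPt Γ)).M :=
  (epsH (yop I 0 n) (E.E (BPt Γ)).lm (gauX 0 R).eps (gauX 0 R).eps_d (gauX 0 R).eps_sg
    (fun t w => by
      change Wk.eps I 0 (yel I 0 t * (w : Wk I 0)) = 0
      rw [map_mul, eps_yel, zero_mul]) (gauX 0 R).eps_gr).comp (S.ev (BPt Γ)).hom

theorem pt_f (y : ((DRF hT K).F (BPt Γ)).M.V) :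
    (S.pt hT).f y = epV I 0 (F.F (BPt Γ)).M.V ((S.ev (BPt Γ)).P y) := rfl

/-- The value of `pi`. -/
theorem pi_eq (F : OmF (BGT Γ)) (v : ((gauX n R).Xi F).V) :
    ((gauX n R).pi F).f v = epV I n (F.F (BPt Γ)).M.V (v 0) := rfl

/-- The level zero of the twisted total. -/
def lv0 (v : (H.XiTw E).V) : Wk I n ⊗[ℂ] (F.F (BPt Γ)).M.V := v 0

theorem piTw_eq (v : (H.XiTw E).V) :
    (H.piTw E).f v = epV I n (F.F (BPt Γ)).M.V (lv0 H v) := H.piTw_apply E v

theorem lv0_Pi (v : ((gauX n R).Xi (DRF hT K)).V) :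
    lv0 H ((S.Pi hT H).f v) = piL I n (S.ev (BPt Γ)).P (v 0) := S.Pi_apply hT H v 0

/-- The map and the projections to the point. -/
theorem piTw_Pi (v : ((gauX n R).Xi (DRF hT K)).V) :
    (H.piTw E).f ((S.Pi hT H).f v) = (S.pt hT).f (((gauX n R).pi (DRF hT K)).f v) := by
  rw [piTw_eq, lv0_Pi, pt_f, pi_eq]
  exact epV_piL I n (S.ev (BPt Γ)).P (v 0)

/-- The map is a quasi-isomorphism if its value at the point is one. -/
theorem qis_Pi (h1 : GD.Qis ((gauX n R).pi (DRF hT K))) (h2 : GD.Qis ((gauX n R).pi F))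
    (h : GD.Qis (S.pt hT)) : GD.Qis (S.Pi hT H).toHom := by
  refine GD.Qis.of_comp_left (v := H.piTw E) (H.qis_piTw E h2) ?_
  have e : (H.piTw E).comp (S.Pi hT H).toHom = (S.pt hT).comp ((gauX n R).pi (DRF hT K)) :=
    homx (S.piTw_Pi hT H)
  rw [e]
  exact h.comp h1

end Src

end

end Vale.Agent.P286.H867
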