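import Vale.Agent.P286.H867.Src
import Vale.Agent.P286.H867.EvJ
import Vale.Agent.P286.H459.ThSI
import Vale.Agent.P286.H389.ThX

/-!
# The evaluation of the jets of a twisted tensor product
-/

namespace Vale.Agent.P286.H867

open Vale.Agent.P286.H847 Vale.Agent.P286.H710 Vale.Agent.P286.H374 Vale.Agent.P286.H697
  Vale.Agent.P286.H987 Vale.Agent.P286.H64 Vale.Agent.P286.Gen Vale.Agent.P286.H761
  Vale.Agent.P286.H549 Vale.Agent.P286.H295 Vale.Agent.P286.H389 TensorProduct CategoryTheory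

noncomputable section

set_option linter.unusedSectionVars false

variable {I : Type} [Fintype I] [DecidableEq I] {n : ℕ}

section Alg

variable {A : Type} [CommRing A] [Algebra ℂ A]

/-- The functions act through the forms. -/
theorem rm_opL (P : LM n) (c : A) (x : Wk I 0 ⊗[ℂ] (Om ℂ A ⊗[ℂ] P.V)) :
    rm A (Wk I 0) (Om ℂ A ⊗[ℂ] P.V) c x =
      opL (WK I 0) (H459.cstO A P.toGD).M.V (algebraMap A (Om ℂ A) c) x := by
  refine Eq.trans ?_ (opL_ro 0 c x).symm
  induction x using TensorProduct.induction_on with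
  | zero => rw [map_zero, map_zero]
  | tmul w y =>
    exact congrArg (fun y : Om ℂ A ⊗[ℂ] P.V => w ⊗ₜ[ℂ] y) (algebraMap_smul (Om ℂ A) c y).symm
  | add x y hx hy => rw [map_add, map_add, hx, hy]

/-- The value on the diagonal. -/
abbrev evG (M : AGD A) : J A M.V →ₗ[ℂ] M.V := J.ev

/-- The evaluation and the pull-back. -/
theorem ev_pullG {B : Type} [CommRing B] [Algebra ℂ B] {M : AGD A} {M' : AGD B} (f : A →ₐ[ℂ] B)
    (u : GD.Hom M.toGD M'.toGD) (h : ∀ (a : A) (x : M.V), u.f (a • x) = f a • u.f x)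
    (x : J A M.V) : evG M' ((JG.pull f u h).f x) = u.f (evG M x) := J.ev_pull f u.f h x

end Alg

section Gen

variable {m : ℕ} {Γ : Gps m} {W : SGD} {Y : LM.Yop n W} {P : LM n} (K : ThG Γ Y P)

/-- The evaluation and the transition maps. -/
theorem th_ev {X X' : Gen.BGObj Γ} (φ : X ⟶ X') (x : J X.A.R (thA Y P X.A.R).V) :
    (K.g φ).f (evG (thA Y P X.A.R) x) =
      evG (thA Y P X'.A.R) ((K.th.tr (X := X) (Y := X') φ).f x) :=
  (ev_pullG (M := thA Y P X.A.R) (M' := thA Y P X'.A.R) (Gen.BGHom.f φ) (K.g φ) (K.sl φ) x).symm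

end Gen

variable {m : ℕ} {Γ : Gps m} [hs : Algebra.Smooth ℂ (Of Γ)] (R : Rpn Γ I)

/-- The complex of jets. -/
abbrev thN (P : LM n) : GTD (BGT Γ) := (thGX (H459.gauT R 0 n) P).th

theorem gtw_eq (P : LM n) {X Y : Gen.BGObj Γ} (φ : X ⟶ Y) :
    (thGX (H459.gauT R 0 n) P).g φ = gtw R (H459.cstE (H459.strB Γ) P) φ := rfl

/-- The evaluation of the jets. -/
def evT (P : LM n) (X : Gen.BGObj Γ) : OAct.Ev (bT (BGT Γ) X) (dgm (thN R P) X)
    (((H459.cstE (H459.strB Γ) P).E X).act (yop I 0 n)) :=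
  evJ (M := thA (yop I 0 n) P X.A.R)
    (((H459.cstE (H459.strB Γ) P).E X).act (yop I 0 n)) (fun c x => rm_opL P c x)
    (bT (BGT Γ) X) (dgm (thN R P) X) LinearMap.id (fun _ => rfl) (fun _ _ => rfl)
    (fun _ _ => rfl) (fun _ _ hx => hx)

theorem evT_e (P : LM n) (X : Gen.BGObj Γ) (x : J X.A.R (thA (yop I 0 n) P X.A.R).V) :
    (evT R P X).e x = evG (thA (yop I 0 n) P X.A.R) x := rfl

/-- The evaluations of the jets. -/
def srcT (P : LM n) : Src R (thN R P) (H459.cstE (H459.strB Γ) P) where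
  ev := evT R P
  nat φ x := by
    rw [← gtw_eq]
    exact th_ev (thGX (H459.gauT R 0 n) P) φ x

end

end Vale.Agent.P286.H867
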