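import Vale.Agent.P286.H847.WkDef

/-!
# The inclusion of the Weil algebra of `gl` in `Wk`
-/

namespace Vale.Agent.P286.H867

open Vale.Agent.P286.H847 TensorProduct

noncomputable section

set_option linter.unusedSectionVars false

section Ext

variable {V V' : Type} [AddCommGroup V] [Module ℂ V] [AddCommGroup V'] [Module ℂ V']

theorem ctr_mul (f : Module.Dual ℂ V) (x y : ExteriorAlgebra ℂ V) :
    CliffordAlgebra.contractLeft f (x * y) = CliffordAlgebra.contractLeft f x * y +
      CliffordAlgebra.involute x * CliffordAlgebra.contractLeft f y := by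
  induction x using CliffordAlgebra.left_induction with
  | algebraMap r =>
    rw [CliffordAlgebra.contractLeft_algebraMap_mul, CliffordAlgebra.contractLeft_algebraMap,
      zero_mul, zero_add, AlgHom.commutes]
  | add x y hx hy => rw [add_mul, map_add, hx, hy, map_add, map_add, add_mul, add_mul]; abel
  | ι_mul x v hx =>
    rw [mul_assoc, CliffordAlgebra.contractLeft_ι_mul, hx, CliffordAlgebra.contractLeft_ι_mul,
      map_mul, CliffordAlgebra.involute_ι, mul_add, sub_mul, ← mul_assoc, smul_mul_assoc, mul_assoc,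
      neg_mul, neg_mul, mul_assoc]
    abel

theorem ctr_map (f : Module.Dual ℂ V') (g : V →ₗ[ℂ] V') (x : ExteriorAlgebra ℂ V) :
    CliffordAlgebra.contractLeft f (ExteriorAlgebra.map g x) =
      ExteriorAlgebra.map g (CliffordAlgebra.contractLeft (f ∘ₗ g) x) := by
  induction x using CliffordAlgebra.left_induction with
  | algebraMap r =>
    rw [AlgHom.commutes, CliffordAlgebra.contractLeft_algebraMap,
      CliffordAlgebra.contractLeft_algebraMap, map_zero]
  | add x y hx hy => rw [map_add, map_add, hx, hy, map_add, map_add]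
  | ι_mul x v hx =>
    have h : ExteriorAlgebra.map g (CliffordAlgebra.ι _ v) = CliffordAlgebra.ι _ (g v) :=
      ExteriorAlgebra.map_apply_ι g v
    rw [map_mul, h, CliffordAlgebra.contractLeft_ι_mul, hx, CliffordAlgebra.contractLeft_ι_mul,
      map_sub, map_smul, map_mul, h]
    rfl

theorem inv_map (g : V →ₗ[ℂ] V') (x : ExteriorAlgebra ℂ V) :
    CliffordAlgebra.involute (ExteriorAlgebra.map g x) =
      ExteriorAlgebra.map g (CliffordAlgebra.involute x) := by
  induction x using CliffordAlgebra.left_induction with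
  | algebraMap r => rw [AlgHom.commutes, AlgHom.commutes, AlgHom.commutes, AlgHom.commutes]
  | add x y hx hy => rw [map_add, map_add, hx, hy, map_add, map_add]
  | ι_mul x v hx =>
    have h : ExteriorAlgebra.map g (CliffordAlgebra.ι _ v) = CliffordAlgebra.ι _ (g v) :=
      ExteriorAlgebra.map_apply_ι g v
    rw [map_mul, map_mul, map_mul, h, CliffordAlgebra.involute_ι, CliffordAlgebra.involute_ι, hx,
      map_mul, map_neg, h]

end Ext

variable (I : Type) [Fintype I] [DecidableEq I] (n : ℕ)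

/-- The antiderivation property. -/
theorem ct_mul (a : Gn I n) (x y : Wk I n) :
    Wk.ct I n a (x * y) = Wk.ct I n a x * y + Wk.sgA I n x * Wk.ct I n a y := by
  induction x using TensorProduct.induction_on with
  | zero => simp
  | add x x' hx hx' => rw [add_mul, map_add, hx, hx', map_add, map_add, add_mul, add_mul]; abel
  | tmul l p =>
    induction y using TensorProduct.induction_on with
    | zero => simp
    | add y y' hy hy' => rw [mul_add, map_add, hy, hy', map_add, mul_add, mul_add]; abel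
    | tmul l' p' =>
      have h1 : ∀ (l : Lm I n) (p : Pl I), Wk.ct I n a (l ⊗ₜ[ℂ] p) =
        CliffordAlgebra.contractLeft (LinearMap.proj a : (Gn I n → ℂ) →ₗ[ℂ] ℂ) l ⊗ₜ[ℂ] p :=
        fun _ _ => rfl
      have h2 : Wk.sgA I n (l ⊗ₜ[ℂ] p) = CliffordAlgebra.involute l ⊗ₜ[ℂ] p := rfl
      rw [Algebra.TensorProduct.tmul_mul_tmul, h1, h1, h1, h2,
        Algebra.TensorProduct.tmul_mul_tmul, Algebra.TensorProduct.tmul_mul_tmul, ctr_mul,
        add_tmul]

/-- The linear map of the odd generators. -/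
def imL : (Gn I 0 → ℂ) →ₗ[ℂ] (Gn I n → ℂ) :=
  LinearMap.pi fun a : Gn I n => Sum.elim (fun p => LinearMap.proj (Sum.inl p : Gn I 0))
    (fun _ => 0) a

theorem im_tmul (l : Lm I 0) (p : Pl I) :
    Wk.im I n (l ⊗ₜ[ℂ] p) = ExteriorAlgebra.map (imL I n) l ⊗ₜ[ℂ] p := rfl

theorem imL_inl (p : I × I) : imL I n (Pi.single (Sum.inl p) 1) = Pi.single (Sum.inl p) 1 := by
  funext a
  rcases a with q | t
  · change (Pi.single (Sum.inl p) 1 : Gn I 0 → ℂ) (Sum.inl q) = _
    by_cases h : q = p
    · subst h; rw [Pi.single_eq_same, Pi.single_eq_same]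
    · rw [Pi.single_eq_of_ne (fun h' => h (Sum.inl_injective h')),
        Pi.single_eq_of_ne (fun h' => h (Sum.inl_injective h'))]
  · change (0 : ℂ) = _
    rw [Pi.single_eq_of_ne (by simp)]

theorem im_gn (p : I × I) : Wk.im I n (Wk.gn I 0 (Sum.inl p)) = Wk.gn I n (Sum.inl p) := by
  change ExteriorAlgebra.map (imL I n) (ExteriorAlgebra.ι ℂ (Pi.single (Sum.inl p) 1)) ⊗ₜ[ℂ] _ = _
  rw [ExteriorAlgebra.map_apply_ι, imL_inl]
  rfl

theorem im_inP (p : Pl I) : Wk.im I n (Wk.inP I 0 p) = Wk.inP I n p := by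
  change ExteriorAlgebra.map (imL I n) 1 ⊗ₜ[ℂ] p = 1 ⊗ₜ[ℂ] p
  rw [map_one]

theorem im_sgA (w : Wk I 0) : Wk.im I n (Wk.sgA I 0 w) = Wk.sgA I n (Wk.im I n w) := by
  induction w using TensorProduct.induction_on with
  | zero => simp
  | add x y hx hy => rw [map_add, map_add, hx, hy, map_add, map_add]
  | tmul l p =>
    change ExteriorAlgebra.map (imL I n) (CliffordAlgebra.involute l) ⊗ₜ[ℂ] p =
      CliffordAlgebra.involute (ExteriorAlgebra.map (imL I n) l) ⊗ₜ[ℂ] p
    rw [inv_map]

theorem proj_imL_inl (p : I × I) : (LinearMap.proj (Sum.inl p) : (Gn I n → ℂ) →ₗ[ℂ] ℂ) ∘ₗ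
    imL I n = LinearMap.proj (Sum.inl p) := rfl

theorem proj_imL_inr (t : Fin n) : (LinearMap.proj (Sum.inr t) : (Gn I n → ℂ) →ₗ[ℂ] ℂ) ∘ₗ
    imL I n = 0 := rfl

theorem ct_inl_im (p : I × I) (w : Wk I 0) :
    Wk.ct I n (Sum.inl p) (Wk.im I n w) = Wk.im I n (Wk.ct I 0 (Sum.inl p) w) := by
  induction w using TensorProduct.induction_on with
  | zero => simp
  | add x y hx hy => rw [map_add, map_add, hx, hy, map_add, map_add]
  | tmul l q =>
    change CliffordAlgebra.contractLeft _ (ExteriorAlgebra.map (imL I n) l) ⊗ₜ[ℂ] q =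
      ExteriorAlgebra.map (imL I n) (CliffordAlgebra.contractLeft _ l) ⊗ₜ[ℂ] q
    rw [ctr_map, proj_imL_inl]

theorem e_im (t : Fin n) (w : Wk I 0) : Wk.e I n t (Wk.im I n w) = 0 := by
  induction w using TensorProduct.induction_on with
  | zero => simp
  | add x y hx hy => rw [map_add, map_add, hx, hy, add_zero]
  | tmul l q =>
    change CliffordAlgebra.contractLeft _ (ExteriorAlgebra.map (imL I n) l) ⊗ₜ[ℂ] q = 0
    rw [ctr_map, proj_imL_inr, map_zero, LinearMap.zero_apply, map_zero, zero_tmul]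

theorem e_mul_im (t : Fin n) (a : Wk I n) (w : Wk I 0) :
    Wk.e I n t (a * Wk.im I n w) = Wk.e I n t a * Wk.im I n w := by
  have h := ct_mul I n (Sum.inr t) a (Wk.im I n w)
  rw [show Wk.ct I n (Sum.inr t) (Wk.im I n w) = 0 from e_im I n t w, mul_zero, add_zero] at h
  exact h

theorem pd_im (s : I × I) (w : Wk I 0) :
    Wk.pd I n s (Wk.im I n w) = Wk.im I n (Wk.pd I 0 s w) := by
  induction w using TensorProduct.induction_on with
  | zero => simp
  | add x y hx hy => rw [map_add, map_add, hx, hy, map_add, map_add]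
  | tmul l q => rfl

theorem im_th (i j : I) : Wk.im I n (Wk.th I 0 i j) = Wk.th I n i j := im_gn I n (i, j)

theorem im_Fm (i j : I) : Wk.im I n (Wk.Fm I 0 i j) = Wk.Fm I n i j := im_inP I n _

theorem im_dgn (p : I × I) : Wk.im I n (Wk.dgn I 0 (Sum.inl p)) = Wk.dgn I n (Sum.inl p) := by
  change Wk.im I n ((Wk.Fm I 0 - Wk.th I 0 * Wk.th I 0) p.1 p.2) =
    (Wk.Fm I n - Wk.th I n * Wk.th I n) p.1 p.2
  rw [Matrix.sub_apply, Matrix.sub_apply, Matrix.mul_apply, Matrix.mul_apply, map_sub, map_sum,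
    im_Fm]
  congr 1
  refine Finset.sum_congr rfl fun k _ => ?_
  rw [map_mul, im_th, im_th]

theorem im_dF (s : I × I) : Wk.im I n (Wk.dF I 0 s) = Wk.dF I n s := by
  change Wk.im I n ((Wk.Fm I 0 * Wk.th I 0 - Wk.th I 0 * Wk.Fm I 0) s.1 s.2) =
    (Wk.Fm I n * Wk.th I n - Wk.th I n * Wk.Fm I n) s.1 s.2
  rw [Matrix.sub_apply, Matrix.sub_apply, Matrix.mul_apply, Matrix.mul_apply, Matrix.mul_apply,
    Matrix.mul_apply, map_sub, map_sum, map_sum]
  congr 1 <;>
  · refine Finset.sum_congr rfl fun k _ => ?_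
    rw [map_mul, im_th, im_Fm]

theorem d_im (w : Wk I 0) : Wk.d I n (Wk.im I n w) = Wk.im I n (Wk.d I 0 w) := by
  unfold Wk.d
  simp only [LinearMap.add_apply, LinearMap.sum_apply, LinearMap.comp_apply,
    LinearMap.mulLeft_apply, map_add, map_sum, map_mul, Fintype.sum_sum_type, Finset.univ_eq_empty,
    Finset.sum_empty, add_zero]
  have h0 : ∀ t : Fin n, Wk.ct I n (Sum.inr t) (Wk.im I n w) = 0 := fun t => e_im I n t w
  simp only [h0, ct_inl_im, pd_im, im_dgn, im_dF, mul_zero, Finset.sum_const_zero, add_zero]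

theorem Nm_im (w : Wk I 0) : Wk.Nm I n (Wk.im I n w) = Wk.im I n (Wk.Nm I 0 w) := by
  unfold Wk.Nm
  simp only [LinearMap.add_apply, LinearMap.sum_apply, LinearMap.smul_apply, LinearMap.comp_apply,
    LinearMap.mulLeft_apply, map_add, map_sum, map_smul, map_mul, Fintype.sum_sum_type,
    Finset.univ_eq_empty, Finset.sum_empty, add_zero]
  have h0 : ∀ t : Fin n, Wk.ct I n (Sum.inr t) (Wk.im I n w) = 0 := fun t => e_im I n t w
  have h1 : ∀ p : I × I, Wk.dg I n (Sum.inl p) = Wk.dg I 0 (Sum.inl p) := fun p => rfl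
  simp only [h0, h1, ct_inl_im, pd_im, im_gn, im_Fm, mul_zero, smul_zero, Finset.sum_const_zero,
    add_zero]

theorem im_gr {m : ℤ} {w : Wk I 0} (h : w ∈ Wk.gr I 0 m) : Wk.im I n w ∈ Wk.gr I n m := by
  rw [Wk.gr, LinearMap.mem_ker, LinearMap.sub_apply, LinearMap.smul_apply, LinearMap.id_apply,
    sub_eq_zero] at h ⊢
  rw [Nm_im, h, map_smul]

theorem eps_im (w : Wk I 0) : Wk.eps I n (Wk.im I n w) = Wk.eps I 0 w := by
  have h : ∀ l : Lm I 0, ExteriorAlgebra.algebraMapInv (ExteriorAlgebra.map (imL I n) l) =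
      ExteriorAlgebra.algebraMapInv l := by
    intro l
    induction l using CliffordAlgebra.left_induction with
    | algebraMap r => rw [AlgHom.commutes, AlgHom.commutes, AlgHom.commutes]
    | add x y hx hy => rw [map_add, map_add, hx, hy, map_add]
    | ι_mul x v hx =>
      have h : ExteriorAlgebra.map (imL I n) (CliffordAlgebra.ι _ v) =
        CliffordAlgebra.ι _ (imL I n v) := ExteriorAlgebra.map_apply_ι _ v
      have h1 : ∀ (V : Type) [AddCommGroup V] [Module ℂ V] (v : V),
          ExteriorAlgebra.algebraMapInv (CliffordAlgebra.ι (0 : QuadraticForm ℂ V) v) = (0 : ℂ) :=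
        fun V _ _ v => by
          change ExteriorAlgebra.algebraMapInv (ExteriorAlgebra.ι ℂ v) = (0 : ℂ)
          unfold ExteriorAlgebra.algebraMapInv
          rw [ExteriorAlgebra.lift_ι_apply]
          rfl
      rw [map_mul, map_mul, map_mul, h, h1, h1, zero_mul, zero_mul]
  induction w using TensorProduct.induction_on with
  | zero => simp
  | add x y hx hy => rw [map_add, map_add, hx, hy, map_add]
  | tmul l q =>
    change ExteriorAlgebra.algebraMapInv (ExteriorAlgebra.map (imL I n) l) * _ =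
      ExteriorAlgebra.algebraMapInv l * _
    rw [h]
    rfl

end

end Vale.Agent.P286.H867
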