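import Vale.Agent.P286.H867.NatT
import Vale.Agent.P286.H867.PtQ
import Vale.Agent.P286.H621.Sig
import Vale.Agent.P286.H459.YP
import Vale.Agent.P286.H549.LTw
import Vale.Agent.P286.H710.E1R

/-!
# The composition of the two functors on the side of the modules
-/

namespace Vale.Agent.P286.H867

open Vale.Agent.P286.H847 Vale.Agent.P286.H710 Vale.Agent.P286.H374 Vale.Agent.P286.H697
  Vale.Agent.P286.H987 Vale.Agent.P286.H64 Vale.Agent.P286.Gen Vale.Agent.P286.H761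
  Vale.Agent.P286.H549 Vale.Agent.P286.H295 Vale.Agent.P286.H389 Vale.Agent.P286.H353
  Vale.Agent.P286.H274 Vale.Agent.P286.H621 Vale.Agent.P286.St TensorProduct CategoryTheory

noncomputable section

set_option linter.unusedSectionVars false

universe u v

universe u₁ v₁ u₂ v₂ u₃ v₃

section Gen

variable {D : DGC.{u, v}} {G : DGC.{u₁, v₁}} {C : DGC.{u₂, v₂}}

theorem comp_four (Y : DGF D G) (V : DGF G C) (O : DGF C G) (X : DGF G D) :
    (((Y.comp V).comp O).comp X).z0 = (Y.z0 ⋙ (V.comp O).z0) ⋙ X.z0 := rfl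

/-- The general form of the zigzag. -/
theorem natW_sig_gen {W : MorphismProperty (Z0 D)} (Y : DGF D G) (V : DGF G C) (O : DGF C G)
    (X : DGF G D) (σ : (V.comp O).z0 ⟶ 𝟭 (Z0 G)) (L : Z0 D ⥤ Z0 D)
    (η : ∀ N : Z0 D, X.z0.obj (Y.z0.obj N) ⟶ L.obj N)
    (nat : ∀ {N N' : Z0 D} (a : N ⟶ N'), X.z0.map (Y.z0.map a) ≫ η N' = η N ≫ L.map a)
    (hq : ∀ N, W (X.z0.map (σ.app (Y.z0.obj N)) ≫ η N)) :
    NatW W ((((Y.comp V).comp O).comp X).z0) L := by
  rw [comp_four]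
  refine ⟨{ app := fun N => X.z0.map (σ.app (Y.z0.obj N)) ≫ η N
            naturality := fun N N' a => ?_ }, hq⟩
  have h2 := σ.naturality (Y.z0.map a)
  have h3 := congrArg (fun w => X.z0.map w) h2
  simp only [Functor.comp_map, Functor.map_comp, Category.assoc, Functor.id_map] at h3 ⊢
  rw [← nat a, ← Category.assoc, h3, Category.assoc]

end Gen

variable {N : ℕ} {Γ : Gps N} [hs : Algebra.Smooth ℂ (Of Γ)] {I : Type} [Fintype I]
  [DecidableEq I] {n : ℕ} (R : Rpn Γ I)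

/-- The map from `Xi` of the jets to the twisted total. -/
def etaL (P : LM n) : LM.Hom ((gauX n R).Xi (DRF (H652.strBG Γ) (thN R P)))
    ((gyR n R).XiTw (H459.cstE (H459.strB Γ) P)) :=
  (srcT R P).Pi (H652.strBG Γ) (gyR n R)

/-- The map from `Xi` of the jets to the twisted total, as a closed morphism. -/
def etaZ (P : Z0 (LMod n)) : (H353.XG (gauX n R)).z0.obj ((H459.Yd R n).z0.obj P) ⟶
    (LTw n R).obj P :=
  LMod.ofH (etaL R (LMod.ol P))

/-- The functor `Xi` of the jets on closed morphisms. -/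
theorem XY_map {P P' : Z0 (LMod n)} (a : P ⟶ P') :
    (LMod.toH ((H353.XG (gauX n R)).z0.map ((H459.Yd R n).z0.map a))).f =
      ((gauX n R).xi (DRF.coch (H652.strBG Γ)
        ((H389.thS (H459.gauT R 0 n)).co' (LMod.lf a)))).f := rfl

/-- The map is natural. -/
theorem etaL_nat {P P' : LM n} (z : LM.Coch P P' 0) (u : LM.Hom P P') (hu : u.f = z.f)
    (v : ((gauX n R).Xi (DRF (H652.strBG Γ) (thN R P))).V) :
    (etaL R P').f (((gauX n R).xi (DRF.coch (H652.strBG Γ)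
        ((H389.thS (H459.gauT R 0 n)).co' z))).f v) =
      ((gyR n R).map (cstH (Γ := Γ) u)).f ((etaL R P).f v) :=
  ((srcT R P).Pi_map (H652.strBG Γ) (srcT R P') (gyR n R)
    ((H389.thS (H459.gauT R 0 n)).co' z) (cstH (Γ := Γ) u)
    (fun X x => evT_nat R z u hu X x) v).symm

theorem etaZ_nat {P P' : Z0 (LMod n)} (a : P ⟶ P') :
    (H353.XG (gauX n R)).z0.map ((H459.Yd R n).z0.map a) ≫ etaZ R P' =
      etaZ R P ≫ (LTw n R).map a :=
  LMod.hom_ext fun x => etaL_nat R (LMod.lf a) (LMod.toH a) rfl x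

section Qis

variable {R}

theorem qis_Pi_xi (hT : H389.Str (BGT Γ)) {K K' : GTD (BGT Γ)} {F : OmF (BGT Γ)} {E : OEF F n}
    (S : Src R K E) (H : GY (gauX n R) (yop I n n) (xop I n) (1 : Wk I n))
    (σ : GTD.Coch K' K 0)
    (b0 : GD.Hom ((DRF hT K').F (BPt Γ)).M ((DRF hT K).F (BPt Γ)).M)
    (hb0 : ∀ x, b0.f x = (DRF.coch hT σ).f (BPt Γ) x)
    (w : LM.Hom ((gauX n R).Xi (DRF hT K')) (H.XiTw E))
    (hw : ∀ v, w.f v = (S.Pi hT H).f (((gauX n R).xi (DRF.coch hT σ)).f v))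
    (h1 : GD.Qis ((gauX n R).pi (DRF hT K'))) (h2 : GD.Qis ((gauX n R).pi F))
    (h : GD.Qis ((S.pt hT).comp b0)) : GD.Qis w.toHom := by
  refine GD.Qis.of_comp_left (v := H.piTw E) (H.qis_piTw E h2) ?_
  have e : (H.piTw E).comp w.toHom = ((S.pt hT).comp b0).comp ((gauX n R).pi (DRF hT K')) :=
    homx fun v => by
      change (H.piTw E).f (w.f v) = (S.pt hT).f (b0.f (((gauX n R).pi (DRF hT K')).f v))
      rw [hw, S.piTw_Pi, hb0]
      exact congrArg (S.pt hT).f ((gauX n R).pi_xi (DRF.coch hT σ) v)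
  rw [e]
  exact h.comp h1

end Qis

end

end Vale.Agent.P286.H867
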