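import Vale.Agent.P286.H867.ZL

/-!
# The map from `Xi` of the jets to the twisted total is a quasi-isomorphism
-/

namespace Vale.Agent.P286.H867

open Vale.Agent.P286.H847 Vale.Agent.P286.H710 Vale.Agent.P286.H374 Vale.Agent.P286.H697
  Vale.Agent.P286.H987 Vale.Agent.P286.H64 Vale.Agent.P286.Gen Vale.Agent.P286.H761
  Vale.Agent.P286.H549 Vale.Agent.P286.H295 Vale.Agent.P286.H389 Vale.Agent.P286.H353
  Vale.Agent.P286.H274 Vale.Agent.P286.H621 Vale.Agent.P286.St TensorProduct CategoryTheory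

noncomputable section

set_option linter.unusedSectionVars false

variable {N : ℕ} {Γ : Gps N} [hs : Algebra.Smooth ℂ (Of Γ)] {I : Type} [Fintype I]
  [DecidableEq I] {n : ℕ} (R : Rpn Γ I)

/-- The de Rham cochain of a closed cochain is closed. -/
theorem DRF_cl {K K' : GTD (BGT Γ)} (σ : GTD.Coch K' K 0) (h : gdl 0 1 σ = 0) :
    odl 0 1 (DRF.coch (H652.strBG Γ) σ) = 0 :=
  (DRFd (H652.strBG Γ)).map_cl σ h

/-- The quasi-isomorphism for a cochain into the jets. -/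
theorem qis_eta {K1 : GTD (BGT Γ)} (P : LM n) (σ : GTD.Coch K1 (thN R P) 0) (h : gdl 0 1 σ = 0)
    (s : GD.Hom (K1.F (BPt Γ)) ((thN R P).F (BPt Γ))) (hs : ∀ x, s.f x = σ.f (BPt Γ) x)
    (hq : GD.Qis s)
    (w : LM.Hom ((gauX n R).Xi (DRF (H652.strBG Γ) K1))
      ((gyR n R).XiTw (H459.cstE (H459.strB Γ) P)))
    (hw : ∀ v, w.f v = (etaL R P).f (((gauX n R).xi (DRF.coch (H652.strBG Γ) σ)).f v))
    (h1 : GD.Qis ((gauX n R).pi (DRF (H652.strBG Γ) K1)))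
    (h2 : GD.Qis ((gauX n R).pi (H459.cst (H459.strB Γ) P.toGD))) : GD.Qis w.toHom :=
  qis_Pi_xi (H652.strBG Γ) (srcT R P) (gyR n R) σ
    (oghom (DRF.coch (H652.strBG Γ) σ) (DRF_cl σ h) (BPt Γ)) (fun _ => rfl) w hw h1 h2
    (ptq_gen R (H652.strBG Γ) P σ s hs hq _ fun _ => rfl)

/-- The value of the functor `Xi` of the jets on a closed morphism. -/
theorem XG_map_f {K1 K2 : Z0 (gtc (BGT Γ))} (a : K1 ⟶ K2)
    (v : ((gauX n R).Xi (DRF (H652.strBG Γ) (gt K1))).V) :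
    (LMod.toH ((H353.XG (gauX n R)).z0.map a)).f v =
      ((gauX n R).xi (DRF.coch (H652.strBG Γ) (gz a))).f v := rfl

theorem gz_cl' {K1 K2 : Z0 (gtc (BGT Γ))} (a : K1 ⟶ K2) : gdl 0 1 (gz a) = 0 := zf_cl a

theorem gh_f' {K1 K2 : Z0 (gtc (BGT Γ))} (a : K1 ⟶ K2) (X : (BGT Γ).C)
    (x : ((gt K1).F X).V) : (gh a X).f x = (gz a).f X x := rfl

/-- The quasi-isomorphism for a closed morphism into the jets. -/
theorem W_eta {K1 : Z0 (gtc (BGT Γ))} (P : LM n) (a : K1 ⟶ zo (C := gtc (BGT Γ)) (thN R P))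
    (h1 : GD.Qis ((gauX n R).pi (DRF (H652.strBG Γ) (gt K1))))
    (h2 : GD.Qis ((gauX n R).pi (H459.cst (H459.strB Γ) P.toGD)))
    (hq : GD.Qis (gh a (BPt Γ))) :
    LMod.W n ((H353.XG (gauX n R)).z0.map a ≫ LMod.ofH (etaL R P)) :=
  qis_eta R P (gz a) (gz_cl' a) (gh a (BPt Γ)) (gh_f' a (BPt Γ)) hq
    (LMod.toH ((H353.XG (gauX n R)).z0.map a ≫ LMod.ofH (etaL R P)))
    (fun v => congrArg (etaL R P).f (XG_map_f R a v)) h1 h2

section Tr

universe u v u₁ v₁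

variable {D : DGC.{u, v}} {C : DGC.{u₁, v₁}}

/-- Transport along the composite of two functors. -/
theorem trans_obj (V : DGF D C) (O : DGF C D) {Q : Z0 D → Prop} (K : D.Obj)
    (h : Q (zo (O.obj (V.obj K)))) : Q ((V.comp O).z0.obj (zo K)) := h

/-- The same, for a computed value. -/
theorem trans_obj' (V : DGF D C) (O : DGF C D) {Q : Z0 D → Prop} (K : D.Obj) {X : D.Obj}
    (e : O.obj (V.obj K) = X) (h : Q (zo X)) : Q ((V.comp O).z0.obj (zo K)) :=
  trans_obj V O K (by rw [e]; exact h)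

end Tr

theorem oT_eq {T : TSite} (X : GTD T) : (ofD T).obj ((toD T).obj X) = ofCx (GTD.cc X) := rfl

theorem toD_eq {T : TSite} (X : GTD T) : (toD T).obj X = GTD.cc X := rfl

/-- The jets are cartesian. -/
theorem thN_cart (P : LM n) : Cx.Cart (T := BGT Γ) (GTD.cc (thN R P)) := H459.Yd_cart R n P

/-- (E1) for the sum family of the jets. -/
theorem qis_pi_oT (hE0 : GD.Qis (R.evU n)) (P : LM n) :
    GD.Qis ((gauX n R).pi (DRF (H652.strBG Γ) (ofCx (GTD.cc (thN R P))))) :=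
  hpi_R R n hE0 (H652.strBG Γ) ⟨GTD.cc (thN R P), thN_cart R P⟩

/-- (E1) for the composite of the two functors on the jets. -/
theorem qis_pi_vo (hE0 : GD.Qis (R.evU n)) (P : LM n) :
    GD.Qis ((gauX n R).pi (DRF (H652.strBG Γ)
      (gt (((toD (BGT Γ)).comp (ofD (BGT Γ))).z0.obj (zo (C := gtc (BGT Γ)) (thN R P)))))) :=
  trans_obj' (toD (BGT Γ)) (ofD (BGT Γ))
    (Q := fun K1 => GD.Qis ((gauX n R).pi (DRF (H652.strBG Γ) (gt K1)))) (thN R P)
    (oT_eq (thN R P)) (qis_pi_oT R hE0 P)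

/-- The quasi-isomorphism for the sum map. -/
theorem W_sig (hE0 : GD.Qis (R.evU n)) (P : LM n) :
    LMod.W n ((H353.XG (gauX n R)).z0.map
      ((natSig (BGT Γ)).app (zo (C := gtc (BGT Γ)) (thN R P))) ≫ LMod.ofH (etaL R P)) :=
  W_eta R P ((natSig (BGT Γ)).app (zo (C := gtc (BGT Γ)) (thN R P))) (qis_pi_vo R hE0 P)
    (qis_pi_cst hE0 P.toGD)
    (gqis_natSig (T := BGT Γ) (zo (C := gtc (BGT Γ)) (thN R P)) (BPt Γ))

/-- **The composition on the side of the modules.** -/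
theorem natW_L (hE0 : GD.Qis (R.evU n)) :
    NatW (LMod.W n) (((((H459.Yd R n).comp (toD (BGT Γ))).comp (ofD (BGT Γ))).comp
      (H353.XG (gauX n R))).z0) (LTw n R) :=
  natW_sig_gen (H459.Yd R n) (toD (BGT Γ)) (ofD (BGT Γ)) (H353.XG (gauX n R))
    (natSig (BGT Γ)) (LTw n R) (etaZ R) (etaZ_nat R) (fun P => W_sig R hE0 (LMod.ol P))

/-- **The remaining statement on the side of the modules.** -/
theorem zL_R (R : Rpn Γ I) (n : ℕ) (hE0 : GD.Qis (R.evU n)) :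
    Zig (LMod.W n) (((((H459.Yd R n).comp (toD (BGT Γ))).comp (ofD (BGT Γ))).comp
      (H353.XG (gauX n R))).z0) (LTw n R) :=
  (natW_L R hE0).zig

end

end Vale.Agent.P286.H867
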